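import Mathlib

set_option autoImplicit false

/-!
Rotation derivations `Xd i j` on polynomials in the entries of an `n × n` matrix, their commutation
relations, the Casimir operator.
-/

namespace Crest.Agent.Lib.OrthPoinc

open MvPolynomial

variable {n : ℕ}

/-- Polynomials in the entries of an `n × n` matrix. -/
abbrev PolyM (n : ℕ) := MvPolynomial (Fin n × Fin n) ℝ

/-- Infinitesimal rotation of the columns `i`, `j`. -/
noncomputable def Xd (i j : Fin n) : Derivation ℝ (PolyM n) (PolyM n) :=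
  MvPolynomial.mkDerivation ℝ (fun ab : Fin n × Fin n =>
    (if ab.2 = j then (X (ab.1, i) : PolyM n) else 0) - (if ab.2 = i then X (ab.1, j) else 0))

theorem Xd_X (i j : Fin n) (a b : Fin n) :
    Xd i j (X (a, b)) = (if b = j then (X (a, i) : PolyM n) else 0) -
      (if b = i then X (a, j) else 0) := by
  simp [Xd, MvPolynomial.mkDerivation_X]

theorem Xd_swap (i j : Fin n) : Xd j i = - Xd i j := by
  apply MvPolynomial.derivation_ext
  rintro ⟨a, b⟩
  rw [Derivation.neg_apply, Xd_X, Xd_X]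
  ring

theorem Xd_swap_apply (i j : Fin n) (p : PolyM n) : Xd j i p = - Xd i j p := by
  rw [Xd_swap]; rfl

theorem Xd_self (i : Fin n) : Xd i i = 0 := by
  apply MvPolynomial.derivation_ext
  rintro ⟨a, b⟩
  rw [Xd_X]
  simp

/-- delta symbol -/
def dl (i j : Fin n) : ℝ := if i = j then 1 else 0

theorem dl_comm (i j : Fin n) : dl i j = dl j i := by
  unfold dl; simp [eq_comm]

theorem dl_self (i : Fin n) : dl i i = 1 := by simp [dl]

theorem Xd_X' (i j : Fin n) (a b : Fin n) :
    Xd i j (X (a, b)) = dl b j • (X (a, i) : PolyM n) - dl b i • X (a, j) := by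
  rw [Xd_X]
  unfold dl
  split_ifs <;> simp

theorem Xd_comm (i j k l : Fin n) (p : PolyM n) :
    Xd i j (Xd k l p) - Xd k l (Xd i j p) =
      dl j k • Xd i l p - dl j l • Xd i k p - dl i k • Xd j l p + dl i l • Xd j k p := by
  have h : ⁅Xd i j, Xd k l⁆ =
      dl j k • Xd i l - dl j l • Xd i k - dl i k • Xd j l + dl i l • Xd j k := by
    apply MvPolynomial.derivation_ext
    rintro ⟨a, b⟩
    rw [Derivation.commutator_apply]
    simp only [Derivation.add_apply, Derivation.sub_apply, Derivation.smul_apply, Xd_X', map_sub,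
      Derivation.map_smul, smul_sub, smul_smul]
    rw [dl_comm j k, dl_comm j l, dl_comm i k, dl_comm i l]
    module
  have h2 := congrArg (fun D : Derivation ℝ (PolyM n) (PolyM n) => D p) h
  simpa [Derivation.commutator_apply] using h2

/-- Casimir operator (sum over ordered pairs). -/
noncomputable def Cas : PolyM n →ₗ[ℝ] PolyM n :=
  ∑ i : Fin n, ∑ j : Fin n, (Xd i j : PolyM n →ₗ[ℝ] PolyM n) ∘ₗ (Xd i j : PolyM n →ₗ[ℝ] PolyM n)

theorem Cas_apply (p : PolyM n) : Cas p = ∑ i : Fin n, ∑ j : Fin n, Xd i j (Xd i j p) := by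
  simp [Cas, LinearMap.sum_apply]

theorem sum_dl_smul (i : Fin n) (f : Fin n → PolyM n) : ∑ j, dl i j • f j = f i := by
  simp [dl]

theorem sum_dl_smul' (i : Fin n) (f : Fin n → PolyM n) : ∑ j, dl j i • f j = f i := by
  simp [dl]

theorem Cas_comm (k l : Fin n) (p : PolyM n) : Cas (Xd k l p) = Xd k l (Cas p) := by
  rw [Cas_apply, Cas_apply, map_sum]
  simp only [map_sum]
  rw [← sub_eq_zero, ← Finset.sum_sub_distrib]
  simp only [← Finset.sum_sub_distrib]
  have key : ∀ i j : Fin n, Xd i j (Xd i j (Xd k l p)) - Xd k l (Xd i j (Xd i j p)) =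
      (dl j k • (Xd i j (Xd i l p) + Xd i l (Xd i j p))
        - dl j l • (Xd i j (Xd i k p) + Xd i k (Xd i j p)))
      + (dl i l • (Xd i j (Xd j k p) + Xd j k (Xd i j p))
        - dl i k • (Xd i j (Xd j l p) + Xd j l (Xd i j p))) := by
    intro i j
    have h1 := Xd_comm i j k l p
    have h2 := Xd_comm i j k l (Xd i j p)
    have h3 : Xd i j (Xd i j (Xd k l p)) = Xd i j (Xd k l (Xd i j p)) +
        Xd i j (dl j k • Xd i l p - dl j l • Xd i k p - dl i k • Xd j l p + dl i l • Xd j k p) := by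
      rw [← h1, map_sub]; abel
    have h4 : Xd i j (Xd k l (Xd i j p)) = Xd k l (Xd i j (Xd i j p)) +
        (dl j k • Xd i l (Xd i j p) - dl j l • Xd i k (Xd i j p) - dl i k • Xd j l (Xd i j p)
          + dl i l • Xd j k (Xd i j p)) := by
      rw [← h2]; abel
    rw [h3, h4]
    simp only [map_add, map_sub, Derivation.map_smul, smul_add]
    abel
  simp only [key]
  simp only [Finset.sum_add_distrib, Finset.sum_sub_distrib]
  have e1 : ∑ i : Fin n, ∑ j : Fin n, dl j k • (Xd i j (Xd i l p) + Xd i l (Xd i j p))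
      = ∑ i : Fin n, (Xd i k (Xd i l p) + Xd i l (Xd i k p)) := by
    refine Finset.sum_congr rfl fun i _ => ?_
    rw [sum_dl_smul' k (fun j => Xd i j (Xd i l p) + Xd i l (Xd i j p))]
  have e2 : ∑ i : Fin n, ∑ j : Fin n, dl j l • (Xd i j (Xd i k p) + Xd i k (Xd i j p))
      = ∑ i : Fin n, (Xd i l (Xd i k p) + Xd i k (Xd i l p)) := by
    refine Finset.sum_congr rfl fun i _ => ?_
    rw [sum_dl_smul' l (fun j => Xd i j (Xd i k p) + Xd i k (Xd i j p))]
  have e3 : ∑ i : Fin n, ∑ j : Fin n, dl i l • (Xd i j (Xd j k p) + Xd j k (Xd i j p))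
      = ∑ j : Fin n, (Xd l j (Xd j k p) + Xd j k (Xd l j p)) := by
    rw [Finset.sum_comm]
    refine Finset.sum_congr rfl fun j _ => ?_
    rw [sum_dl_smul' l (fun i => Xd i j (Xd j k p) + Xd j k (Xd i j p))]
  have e4 : ∑ i : Fin n, ∑ j : Fin n, dl i k • (Xd i j (Xd j l p) + Xd j l (Xd i j p))
      = ∑ j : Fin n, (Xd k j (Xd j l p) + Xd j l (Xd k j p)) := by
    rw [Finset.sum_comm]
    refine Finset.sum_congr rfl fun j _ => ?_
    rw [sum_dl_smul' k (fun i => Xd i j (Xd j l p) + Xd j l (Xd i j p))]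
  rw [e1, e2, e3, e4]
  have e5 : ∑ i : Fin n, (Xd i k (Xd i l p) + Xd i l (Xd i k p)) -
      ∑ i : Fin n, (Xd i l (Xd i k p) + Xd i k (Xd i l p)) = 0 := by
    rw [← Finset.sum_sub_distrib]
    exact Finset.sum_eq_zero fun i _ => by abel
  have e6 : ∑ j : Fin n, (Xd l j (Xd j k p) + Xd j k (Xd l j p)) -
      ∑ j : Fin n, (Xd k j (Xd j l p) + Xd j l (Xd k j p)) = 0 := by
    rw [← Finset.sum_sub_distrib]
    refine Finset.sum_eq_zero fun j _ => ?_
    rw [Xd_swap_apply j l (Xd j k p), Xd_swap_apply j k (Xd j l p), Xd_swap_apply j l p,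
      Xd_swap_apply j k p, map_neg, map_neg]
    abel
  rw [e5, e6]; simp

theorem Xd_totalDegree_le (i j : Fin n) (p : PolyM n) (d : ℕ) (hp : p.totalDegree ≤ d) :
    (Xd i j p).totalDegree ≤ d := by
  classical
  -- by linearity reduce to monomials
  have hmono : ∀ (s : (Fin n × Fin n) →₀ ℕ) (a : ℝ), (s.sum fun _ e => e) ≤ d →
      (Xd i j (monomial s a)).totalDegree ≤ d := by
    intro s a hs
    rw [Xd, MvPolynomial.mkDerivation_monomial]
    refine (MvPolynomial.totalDegree_smul_le _ _).trans ?_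
    rw [Finsupp.sum]
    refine MvPolynomial.totalDegree_finsetSum_le ?_
    intro ab hab
    rw [smul_eq_mul]
    refine (MvPolynomial.totalDegree_mul _ _).trans ?_
    have h1 : ((if ab.2 = j then (X (ab.1, i) : PolyM n) else 0) -
        (if ab.2 = i then X (ab.1, j) else 0)).totalDegree ≤ 1 := by
      refine (MvPolynomial.totalDegree_sub _ _).trans ?_
      apply max_le <;> split_ifs <;> simp
    have h2 : (monomial (s - Finsupp.single ab 1) ((s ab : ℕ) : ℝ)).totalDegree ≤
        ((s - Finsupp.single ab 1).sum fun _ e => e) := MvPolynomial.totalDegree_monomial_le _ _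
    have h3 : ((s - Finsupp.single ab 1).sum fun _ e => e) + 1 = (s.sum fun _ e => e) := by
      have hle : Finsupp.single ab 1 ≤ s := by
        rw [Finsupp.single_le_iff]
        have : s ab ≠ 0 := Finsupp.mem_support_iff.mp hab
        omega
      have h4 : s = (s - Finsupp.single ab 1) + Finsupp.single ab 1 := by
        rw [tsub_add_cancel_of_le hle]
      conv_rhs => rw [h4]
      rw [Finsupp.sum_add_index' (by simp) (by simp)]
      simp
    omega
  rw [MvPolynomial.as_sum p, map_sum]
  refine MvPolynomial.totalDegree_finsetSum_le ?_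
  intro s hs
  apply hmono
  exact (MvPolynomial.le_totalDegree hs).trans hp

end Crest.Agent.Lib.OrthPoinc
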