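import Mathlib

set_option autoImplicit false

/-!
Abstract spectral gap lemma: for a symmetric positive semidefinite form `B` on a finite dimensional
real space and a `B`-symmetric, `B`-positive operator `T` with `T^2 ≥ ρ T`, every `f` splits as
`f0 + f1` with `B(T f0, f0) = 0` and `ρ B(f1,f1) ≤ B(T f, f)`.
-/

namespace Crest.Agent.Lib.OrthPoinc

section Gap

variable {V : Type*} [AddCommGroup V] [Module ℝ V]

theorem cs_of_pos (Q : LinearMap.BilinForm ℝ V) (hs : ∀ x y, Q x y = Q y x)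
    (hp : ∀ x, 0 ≤ Q x x) (x y : V) : (Q x y) ^ 2 ≤ Q x x * Q y y :=
  LinearMap.BilinForm.apply_sq_le_of_symm Q hp ⟨fun x y => by simpa using hs x y⟩ x y

variable [FiniteDimensional ℝ V]

theorem gap_of_sq (B : LinearMap.BilinForm ℝ V) (hsymm : ∀ x y, B x y = B y x)
    (hpos : ∀ x, 0 ≤ B x x) (T : V →ₗ[ℝ] V) (hT : ∀ x y, B (T x) y = B x (T y))
    (hTpos : ∀ x, 0 ≤ B (T x) x) (ρ : ℝ) (hρ : 0 < ρ)
    (hgap : ∀ x, ρ * B (T x) x ≤ B (T x) (T x)) (f : V) :
    ∃ f0 : V, B (T f0) f0 = 0 ∧ ρ * B (f - f0) (f - f0) ≤ B (T f) f := by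
  classical
  -- the form `(x,y) ↦ B (T x) y`
  set Q : LinearMap.BilinForm ℝ V := B.comp T LinearMap.id with hQdef
  have hQ : ∀ x y, Q x y = B (T x) y := fun x y => by simp [hQdef]
  have hQs : ∀ x y, Q x y = Q y x := by
    intro x y
    rw [hQ, hQ, hT, hsymm]
  have hQp : ∀ x, 0 ≤ Q x x := fun x => by rw [hQ]; exact hTpos x
  have hcs := cs_of_pos Q hQs hQp
  -- null vectors
  have hnull : ∀ x, Q (T x) (T x) = 0 → Q x x = 0 := by
    intro x hx
    have h1 := hcs x (T x)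
    rw [hx, mul_zero] at h1
    have h2 : Q x (T x) = 0 := by nlinarith [sq_nonneg (Q x (T x))]
    rw [hQ] at h2
    have h3 := hgap x
    rw [h2] at h3
    have h4 := hTpos x
    rw [hQ]
    nlinarith
  have hpow : ∀ (n : ℕ) (x : V), (T ^ n) x = 0 → Q x x = 0 := by
    intro n
    induction n with
    | zero => intro x hx; simp at hx; simp [hx]
    | succ n ih =>
      intro x hx
      apply hnull
      apply ih
      rw [pow_succ] at hx
      simpa using hx
  obtain ⟨n, hn1, hn⟩ := ((Filter.eventually_ge_atTop 1).and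
    (LinearMap.eventually_isCompl_ker_pow_range_pow (R := ℝ) (M := V) T)).exists
  have hmem : f ∈ LinearMap.ker (T ^ n) ⊔ LinearMap.range (T ^ n) := by
    rw [hn.sup_eq_top]; trivial
  obtain ⟨f0, hf0, f1, hf1, hff⟩ := Submodule.mem_sup.mp hmem
  obtain ⟨g', hg'⟩ := hf1
  obtain ⟨m, rfl⟩ : ∃ m, n = m + 1 := ⟨n - 1, by omega⟩
  set g := (T ^ m) g' with hg
  have hfg : f1 = T g := by
    rw [← hg', pow_succ', hg]; rfl
  have hn0 : Q f0 f0 = 0 := hpow _ f0 hf0
  refine ⟨f0, by rw [← hQ]; exact hn0, ?_⟩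
  have hf01 : f - f0 = f1 := by rw [← hff]; abel
  rw [hf01]
  have hz : ∀ y, Q f0 y = 0 := by
    intro y
    have h1 := hcs f0 y
    rw [hn0, zero_mul] at h1
    nlinarith [sq_nonneg (Q f0 y)]
  have hQf : B (T f) f = Q f1 f1 := by
    rw [← hQ, ← hff]
    have e : Q (f0 + f1) (f0 + f1) = Q f0 f0 + Q f0 f1 + (Q f1 f0 + Q f1 f1) := by
      simp only [map_add, LinearMap.add_apply]; ring
    rw [e, hn0, hz f1, hQs f1 f0, hz f1]; ring
  rw [hQf]
  have h1 := hcs g f1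
  have h2 := hgap g
  have h3 : Q g f1 = B f1 f1 := by rw [hQ, ← hfg]
  have h4 : B (T g) (T g) = B f1 f1 := by rw [← hfg]
  rw [h3] at h1
  rw [h4, ← hQ] at h2
  have h5 := hpos f1
  have h6 := hQp f1
  rcases h5.eq_or_lt with h | h
  · rw [← h]; simpa using h6
  · have : B f1 f1 * (ρ * B f1 f1) ≤ B f1 f1 * Q f1 f1 := by
      calc B f1 f1 * (ρ * B f1 f1) = ρ * (B f1 f1) ^ 2 := by ring
        _ ≤ ρ * (Q g g * Q f1 f1) := by gcongr
        _ = (ρ * Q g g) * Q f1 f1 := by ring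
        _ ≤ B f1 f1 * Q f1 f1 := by gcongr
    exact le_of_mul_le_mul_left this h

end Gap

end Crest.Agent.Lib.OrthPoinc
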