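import Mathlib
import Crest.Agent.Lib.OrthPoinc.Gap
import Crest.Agent.Lib.OrthPoinc.Der

set_option autoImplicit false

/-!
Evaluation of polynomials on matrices, rotations of two columns, integration by parts.
-/

namespace Crest.Agent.Lib.OrthPoinc

open MvPolynomial MeasureTheory

variable {n : ℕ}

/-- `n × n` real matrices as functions. -/
abbrev Mat (n : ℕ) := Fin n → Fin n → ℝ

/-- Evaluation of a polynomial at a matrix. -/
noncomputable def ev (p : PolyM n) (U : Mat n) : ℝ := MvPolynomial.eval (fun ab => U ab.1 ab.2) p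

theorem ev_add (p q : PolyM n) (U : Mat n) : ev (p + q) U = ev p U + ev q U := by simp [ev]
theorem ev_sub (p q : PolyM n) (U : Mat n) : ev (p - q) U = ev p U - ev q U := by simp [ev]
theorem ev_mul (p q : PolyM n) (U : Mat n) : ev (p * q) U = ev p U * ev q U := by simp [ev]
theorem ev_neg (p : PolyM n) (U : Mat n) : ev (-p) U = - ev p U := by simp [ev]
theorem ev_smul (c : ℝ) (p : PolyM n) (U : Mat n) : ev (c • p) U = c * ev p U := by
  simp [ev, MvPolynomial.smul_eval]
theorem ev_C (c : ℝ) (U : Mat n) : ev (C c) U = c := by simp [ev]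
theorem ev_zero (U : Mat n) : ev 0 U = 0 := by simp [ev]
theorem ev_one (U : Mat n) : ev 1 U = 1 := by simp [ev]
theorem ev_X (a b : Fin n) (U : Mat n) : ev (X (a, b)) U = U a b := by simp [ev]
theorem ev_sum {ι : Type*} (s : Finset ι) (p : ι → PolyM n) (U : Mat n) :
    ev (∑ i ∈ s, p i) U = ∑ i ∈ s, ev (p i) U := by simp [ev]
theorem ev_pow (p : PolyM n) (k : ℕ) (U : Mat n) : ev (p ^ k) U = ev p U ^ k := by simp [ev]

theorem continuous_ev (p : PolyM n) : Continuous (ev p) := by
  unfold ev
  exact (MvPolynomial.continuous_eval p).comp (by fun_prop)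

theorem measurable_ev (p : PolyM n) : Measurable (ev p) := (continuous_ev p).measurable

/-- Rotation by the angle `t` of the columns `i`, `j`. -/
noncomputable def rot (i j : Fin n) (t : ℝ) (U : Mat n) : Mat n := fun a b =>
  if b = j then Real.cos t * U a j + Real.sin t * U a i
  else if b = i then Real.cos t * U a i - Real.sin t * U a j else U a b

theorem rot_zero (i j : Fin n) (U : Mat n) : rot i j 0 U = U := by
  funext a b
  unfold rot
  split_ifs with h1 h2 <;> simp [*]

theorem continuous_rot (i j : Fin n) (t : ℝ) : Continuous (rot i j t) := by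
  unfold rot
  refine continuous_pi fun a => continuous_pi fun b => ?_
  split_ifs <;> fun_prop

theorem continuous_rot_joint (i j : Fin n) : Continuous (fun z : ℝ × Mat n => rot i j z.1 z.2) := by
  unfold rot
  refine continuous_pi fun a => continuous_pi fun b => ?_
  split_ifs <;> fun_prop

theorem hasDerivAt_rot_entry (i j : Fin n) (hij : i ≠ j) (U : Mat n) (a b : Fin n) (t : ℝ) :
    HasDerivAt (fun t => rot i j t U a b) (ev (Xd i j (X (a, b))) (rot i j t U)) t := by
  rw [Xd_X, ev_sub]
  by_cases h1 : b = j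
  · subst h1
    have hbi : ¬ (b = i) := fun h => hij h.symm
    rw [if_pos rfl, if_neg hbi, ev_X, ev_zero]
    have h3 : rot i b t U a i = Real.cos t * U a i - Real.sin t * U a b := by
      unfold rot; rw [if_neg hij, if_pos rfl]
    rw [h3]
    have h4 : (fun t => rot i b t U a b) = fun t => Real.cos t * U a b + Real.sin t * U a i := by
      funext t; unfold rot; rw [if_pos rfl]
    rw [h4]
    have := ((Real.hasDerivAt_cos t).mul_const (U a b)).add
      ((Real.hasDerivAt_sin t).mul_const (U a i))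
    exact this.congr_deriv (by ring)
  · by_cases h2 : b = i
    · subst h2
      rw [if_neg h1, if_pos rfl, ev_X, ev_zero]
      have h3 : rot b j t U a j = Real.cos t * U a j + Real.sin t * U a b := by
        unfold rot; rw [if_pos rfl]
      rw [h3]
      have h4 : (fun t => rot b j t U a b) = fun t => Real.cos t * U a b - Real.sin t * U a j := by
        funext t; unfold rot; rw [if_neg h1, if_pos rfl]
      rw [h4]
      have := ((Real.hasDerivAt_cos t).mul_const (U a b)).sub
        ((Real.hasDerivAt_sin t).mul_const (U a j))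
      exact this.congr_deriv (by ring)
    · rw [if_neg h1, if_neg h2, ev_zero]
      have h4 : (fun t => rot i j t U a b) = fun t => U a b := by
        funext t; unfold rot; rw [if_neg h1, if_neg h2]
      rw [h4]
      simpa using hasDerivAt_const t (U a b)

theorem hasDerivAt_ev_rot (i j : Fin n) (hij : i ≠ j) (p : PolyM n) (U : Mat n) (t : ℝ) :
    HasDerivAt (fun t => ev p (rot i j t U)) (ev (Xd i j p) (rot i j t U)) t := by
  induction p using MvPolynomial.induction_on with
  | C c =>
    have h1 : (fun t => ev (C c) (rot i j t U)) = fun _ => c := by funext t; rw [ev_C]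
    rw [h1]
    have h2 : Xd i j (C c : PolyM n) = 0 := MvPolynomial.derivation_C _ _
    rw [h2, ev_zero]
    exact hasDerivAt_const t c
  | add p q hp hq =>
    have h1 : (fun t => ev (p + q) (rot i j t U)) =
        fun t => ev p (rot i j t U) + ev q (rot i j t U) := by funext t; rw [ev_add]
    rw [h1, map_add, ev_add]
    exact hp.add hq
  | mul_X p ab hp =>
    obtain ⟨a, b⟩ := ab
    have h1 : (fun t => ev (p * X (a, b)) (rot i j t U)) =
        fun t => ev p (rot i j t U) * rot i j t U a b := by funext t; rw [ev_mul, ev_X]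
    rw [h1, Derivation.leibniz, ev_add, smul_eq_mul, smul_eq_mul, ev_mul, ev_mul, ev_X]
    have := hp.mul (hasDerivAt_rot_entry i j hij U a b t)
    exact this.congr_deriv (by ring)

/-- The hypotheses on the law used for integration by parts: bounded entries and invariance under
the rotations of two columns. -/
structure RotInv (μ : Measure (Mat n)) : Prop where
  bdd : ∀ᵐ U ∂μ, ∀ a b, |U a b| ≤ 1
  inv : ∀ (i j : Fin n), i ≠ j → ∀ t : ℝ, μ.map (rot i j t) = μ

theorem abs_rot_le (i j : Fin n) (t : ℝ) (U : Mat n) (c : ℝ) (hU : ∀ a b, |U a b| ≤ c)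
    (a b : Fin n) : |rot i j t U a b| ≤ 2 * c := by
  have hc : 0 ≤ c := (abs_nonneg _).trans (hU a b)
  have h1 := Real.abs_cos_le_one t
  have h2 := Real.abs_sin_le_one t
  unfold rot
  split_ifs
  · calc |Real.cos t * U a j + Real.sin t * U a i| ≤ |Real.cos t| * |U a j| + |Real.sin t| * |U a i| := by
          rw [← abs_mul, ← abs_mul]; exact abs_add_le _ _
      _ ≤ 1 * c + 1 * c := by gcongr <;> apply hU
      _ = 2 * c := by ring
  · calc |Real.cos t * U a i - Real.sin t * U a j| ≤ |Real.cos t| * |U a i| + |Real.sin t| * |U a j| := by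
          rw [← abs_mul, ← abs_mul]; exact abs_sub _ _
      _ ≤ 1 * c + 1 * c := by gcongr <;> apply hU
      _ = 2 * c := by ring
  · linarith [hU a b]

/-- polynomials are bounded on bounded sets of matrices -/
theorem exists_bound_ev (p : PolyM n) (c : ℝ) :
    ∃ K : ℝ, 0 ≤ K ∧ ∀ U : Mat n, (∀ a b, |U a b| ≤ c) → |ev p U| ≤ K := by
  have hcomp : IsCompact (Set.univ.pi fun _ : Fin n => Set.univ.pi fun _ : Fin n => Set.Icc (-c) c) :=
    isCompact_univ_pi fun _ => isCompact_univ_pi fun _ => isCompact_Icc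
  obtain ⟨K, hK⟩ := hcomp.exists_bound_of_continuousOn (continuous_ev p).continuousOn
  refine ⟨max K 0, le_max_right _ _, fun U hU => ?_⟩
  have := hK U (by
    intro a _ b _
    exact abs_le.mp (hU a b))
  rw [Real.norm_eq_abs] at this
  exact this.trans (le_max_left _ _)

variable {μ : Measure (Mat n)} [IsProbabilityMeasure μ]

theorem integrable_ev (hμ : ∀ᵐ U ∂μ, ∀ a b, |U a b| ≤ 1) (p : PolyM n) :
    Integrable (ev p) μ := by
  obtain ⟨K, hK0, hK⟩ := exists_bound_ev p 1
  refine Integrable.of_bound (measurable_ev p).aestronglyMeasurable K ?_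
  filter_upwards [hμ] with U hU
  rw [Real.norm_eq_abs]
  exact hK U hU

/-- integration by parts: the integral of a derivative vanishes -/
theorem integral_Xd (hμ : RotInv μ) (i j : Fin n) (p : PolyM n) :
    ∫ U, ev (Xd i j p) U ∂μ = 0 := by
  by_cases hij : i = j
  · subst hij
    have : Xd i i p = 0 := by rw [Xd_self]; rfl
    rw [this]
    simp [ev_zero]
  obtain ⟨K, hK0, hK⟩ := exists_bound_ev (Xd i j p) 2
  have hder : HasDerivAt (fun t => ∫ U, ev p (rot i j t U) ∂μ)
      (∫ U, ev (Xd i j p) (rot i j 0 U) ∂μ) 0 := by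
    have := hasDerivAt_integral_of_dominated_loc_of_deriv_le (μ := μ) (𝕜 := ℝ)
      (F := fun t U => ev p (rot i j t U)) (F' := fun t U => ev (Xd i j p) (rot i j t U))
      (x₀ := 0) (bound := fun _ => K) (s := Set.univ) (Filter.univ_mem)
      (by
        filter_upwards with t
        exact ((continuous_ev p).comp (continuous_rot i j t)).aestronglyMeasurable)
      (by
        have h0 : (fun U => ev p (rot i j 0 U)) = ev p := by funext U; rw [rot_zero]
        simp only [h0]
        exact integrable_ev hμ.bdd p)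
      (((continuous_ev _).comp (continuous_rot i j 0)).aestronglyMeasurable)
      (by
        filter_upwards [hμ.bdd] with U hU t _
        rw [Real.norm_eq_abs]
        exact hK _ fun a b => by simpa using abs_rot_le i j t U 1 hU a b)
      (integrable_const K)
      (by
        filter_upwards with U t _
        exact hasDerivAt_ev_rot i j hij p U t)
    exact this.2
  have hconst : (fun t => ∫ U, ev p (rot i j t U) ∂μ) = fun _ => ∫ U, ev p U ∂μ := by
    funext t
    have h1 := hμ.inv i j hij t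
    have h2 : ∫ U, ev p U ∂(μ.map (rot i j t)) = ∫ U, ev p (rot i j t U) ∂μ :=
      integral_map (continuous_rot i j t).measurable.aemeasurable
        (continuous_ev p).aestronglyMeasurable
    rw [← h2, h1]
  rw [hconst] at hder
  have h0 := hder.unique (hasDerivAt_const (0 : ℝ) (∫ U, ev p U ∂μ))
  simpa [rot_zero] using h0

theorem integral_Xd_mul (hμ : RotInv μ) (i j : Fin n) (p q : PolyM n) :
    ∫ U, ev (Xd i j p) U * ev q U ∂μ = - ∫ U, ev p U * ev (Xd i j q) U ∂μ := by
  have h := integral_Xd hμ i j (p * q)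
  have h1 : ∀ U, ev (Xd i j (p * q)) U = ev p U * ev (Xd i j q) U + ev (Xd i j p) U * ev q U := by
    intro U
    rw [Derivation.leibniz, ev_add, smul_eq_mul, smul_eq_mul, ev_mul, ev_mul]
    ring
  simp only [h1] at h
  rw [integral_add] at h
  · linarith
  · simpa only [← ev_mul] using integrable_ev hμ.bdd (p * Xd i j q)
  · simpa only [← ev_mul] using integrable_ev hμ.bdd (Xd i j p * q)

/-- the bilinear form `∫ p q dμ` on polynomials -/
noncomputable def Bf (μ : Measure (Mat n)) [IsProbabilityMeasure μ]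
    (hμ : ∀ᵐ U ∂μ, ∀ a b, |U a b| ≤ 1) : LinearMap.BilinForm ℝ (PolyM n) :=
  LinearMap.mk₂ ℝ (fun p q => ∫ U, ev p U * ev q U ∂μ)
    (by
      intro p q r
      simp only [ev_add, add_mul]
      rw [integral_add] <;> simpa only [← ev_mul] using integrable_ev hμ _)
    (by
      intro c p q
      simp only [ev_smul, smul_eq_mul]
      rw [← integral_const_mul]
      congr 1; funext U; ring)
    (by
      intro p q r
      simp only [ev_add, mul_add]
      rw [integral_add] <;> simpa only [← ev_mul] using integrable_ev hμ _)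
    (by
      intro c p q
      simp only [ev_smul, smul_eq_mul]
      rw [← integral_const_mul]
      congr 1; funext U; ring)

theorem Bf_apply (hμ : ∀ᵐ U ∂μ, ∀ a b, |U a b| ≤ 1) (p q : PolyM n) :
    Bf μ hμ p q = ∫ U, ev p U * ev q U ∂μ := rfl

/-- energy (sum over ordered pairs of the squared derivatives) -/
noncomputable def Gam (p : PolyM n) (U : Mat n) : ℝ :=
  ∑ i : Fin n, ∑ j : Fin n, (ev (Xd i j p) U) ^ 2

theorem Bf_Xd (hμ : RotInv μ) (i j : Fin n) (p q : PolyM n) :
    Bf μ hμ.bdd (Xd i j p) q = - Bf μ hμ.bdd p (Xd i j q) := integral_Xd_mul hμ i j p q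

theorem Bf_symm (hμ : ∀ᵐ U ∂μ, ∀ a b, |U a b| ≤ 1) (p q : PolyM n) :
    Bf μ hμ p q = Bf μ hμ q p := by
  rw [Bf_apply, Bf_apply]; congr 1; funext U; ring

theorem Bf_self_nonneg (hμ : ∀ᵐ U ∂μ, ∀ a b, |U a b| ≤ 1) (p : PolyM n) : 0 ≤ Bf μ hμ p p := by
  rw [Bf_apply]
  exact integral_nonneg fun U => mul_self_nonneg _

theorem Bf_Cas (hμ : RotInv μ) (p q : PolyM n) :
    Bf μ hμ.bdd (Cas p) q = - ∑ i : Fin n, ∑ j : Fin n, Bf μ hμ.bdd (Xd i j p) (Xd i j q) := by
  rw [Cas_apply]
  simp only [map_sum, LinearMap.sum_apply, Bf_Xd hμ _ _ (Xd _ _ p) q, Finset.sum_neg_distrib]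

theorem Bf_Cas_symm (hμ : RotInv μ) (p q : PolyM n) :
    Bf μ hμ.bdd (Cas p) q = Bf μ hμ.bdd p (Cas q) := by
  rw [Bf_symm hμ.bdd p, Bf_Cas hμ, Bf_Cas hμ]
  congr 1
  refine Finset.sum_congr rfl fun i _ => Finset.sum_congr rfl fun j _ => ?_
  exact Bf_symm _ _ _

/-- sum of the squared commutators -/
theorem comm_sum (p : PolyM n) (U : Mat n) :
    ∑ i : Fin n, ∑ j : Fin n, ∑ k : Fin n, ∑ l : Fin n,
      (ev (Xd i j (Xd k l p)) U - ev (Xd k l (Xd i j p)) U) ^ 2 = 4 * ((n : ℝ) - 2) * Gam p U := by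
  set y : Fin n → Fin n → ℝ := fun i j => ev (Xd i j p) U with hy
  have hskew : ∀ i j, y j i = - y i j := by
    intro i j
    simp only [hy]
    rw [Xd_swap_apply, ev_neg]
  have hdiag : ∀ i, y i i = 0 := by
    intro i
    have := hskew i i
    linarith
  have h1 : ∀ i j k l, ev (Xd i j (Xd k l p)) U - ev (Xd k l (Xd i j p)) U =
      dl j k * y i l - dl j l * y i k - dl i k * y j l + dl i l * y j k := by
    intro i j k l
    rw [← ev_sub, Xd_comm]
    simp only [ev_add, ev_sub, ev_smul, hy]
  simp only [h1]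
  have hdl : ∀ a b : Fin n, dl a b * dl a b = dl a b := by
    intro a b; unfold dl; split_ifs <;> simp
  have hexp : ∀ i j k l : Fin n,
      (dl j k * y i l - dl j l * y i k - dl i k * y j l + dl i l * y j k) ^ 2 =
      (dl j k * (y i l) ^ 2 + dl j l * (y i k) ^ 2 + dl i k * (y j l) ^ 2 + dl i l * (y j k) ^ 2)
      + (-(2 * (dl j k * (dl j l * (y i l * y i k)))) - 2 * (dl j k * (dl i k * (y i l * y j l)))
        + 2 * (dl j k * (dl i l * (y i l * y j k))) + 2 * (dl j l * (dl i k * (y i k * y j l)))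
        - 2 * (dl j l * (dl i l * (y i k * y j k))) - 2 * (dl i k * (dl i l * (y j l * y j k)))) := by
    intro i j k l
    linear_combination (y i l) ^ 2 * hdl j k + (y i k) ^ 2 * hdl j l + (y j l) ^ 2 * hdl i k
      + (y j k) ^ 2 * hdl i l
  simp only [hexp]
  have hS : Gam p U = ∑ i, ∑ j, (y i j) ^ 2 := rfl
  have sdl : ∀ (a : Fin n) (f : Fin n → ℝ), ∑ b, dl a b * f b = f a := by
    intro a f; simp [dl]
  have sdl' : ∀ (a : Fin n) (f : Fin n → ℝ), ∑ b, dl b a * f b = f a := by
    intro a f; simp [dl]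
  simp only [Finset.sum_add_distrib, Finset.sum_sub_distrib, Finset.sum_neg_distrib,
    ← Finset.mul_sum]
  -- the ten sums
  have t1 : ∑ i : Fin n, ∑ j : Fin n, ∑ k : Fin n, dl j k * ∑ l : Fin n, (y i l) ^ 2
      = n * ∑ i, ∑ j, (y i j) ^ 2 := by
    simp only [sdl]
    simp only [Finset.sum_const, Finset.card_univ, Fintype.card_fin, nsmul_eq_mul, ← Finset.mul_sum]
  have t2 : ∑ i : Fin n, ∑ j : Fin n, ∑ k : Fin n, ∑ l : Fin n, dl j l * (y i k) ^ 2
      = n * ∑ i, ∑ j, (y i j) ^ 2 := by
    have : ∀ i j k : Fin n, ∑ l : Fin n, dl j l * (y i k) ^ 2 = (y i k) ^ 2 := by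
      intro i j k; rw [sdl j (fun _ => (y i k) ^ 2)]
    simp only [this]
    simp only [Finset.sum_const, Finset.card_univ, Fintype.card_fin, nsmul_eq_mul, ← Finset.mul_sum]
  have t3 : ∑ i : Fin n, ∑ j : Fin n, ∑ k : Fin n, dl i k * ∑ l : Fin n, (y j l) ^ 2
      = n * ∑ i, ∑ j, (y i j) ^ 2 := by
    simp only [sdl]
    simp only [Finset.sum_const, Finset.card_univ, Fintype.card_fin, nsmul_eq_mul]
  have t4 : ∑ i : Fin n, ∑ j : Fin n, ∑ k : Fin n, ∑ l : Fin n, dl i l * (y j k) ^ 2
      = n * ∑ i, ∑ j, (y i j) ^ 2 := by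
    have : ∀ i j k : Fin n, ∑ l : Fin n, dl i l * (y j k) ^ 2 = (y j k) ^ 2 := by
      intro i j k; rw [sdl i (fun _ => (y j k) ^ 2)]
    simp only [this]
    simp only [Finset.sum_const, Finset.card_univ, Fintype.card_fin, nsmul_eq_mul]
  have t5 : ∑ i : Fin n, ∑ j : Fin n, ∑ k : Fin n, dl j k * ∑ l : Fin n, dl j l * (y i l * y i k)
      = ∑ i, ∑ j, (y i j) ^ 2 := by
    refine Finset.sum_congr rfl fun i _ => Finset.sum_congr rfl fun j _ => ?_
    have : ∀ k : Fin n, ∑ l : Fin n, dl j l * (y i l * y i k) = y i j * y i k := by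
      intro k; rw [sdl j (fun l => y i l * y i k)]
    simp only [this]
    rw [sdl j (fun k => y i j * y i k)]; ring
  have t6 : ∑ i : Fin n, ∑ j : Fin n, ∑ k : Fin n, dl j k * (dl i k * ∑ l : Fin n, y i l * y j l)
      = ∑ i, ∑ j, (y i j) ^ 2 := by
    refine Finset.sum_congr rfl fun i _ => ?_
    have h : ∀ j : Fin n, ∑ k : Fin n, dl j k * (dl i k * ∑ l : Fin n, y i l * y j l) =
        dl i j * ∑ l : Fin n, y i l * y j l := by
      intro j; rw [sdl j (fun k => dl i k * ∑ l : Fin n, y i l * y j l)]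
    simp only [h]
    rw [sdl i (fun j => ∑ l : Fin n, y i l * y j l)]
    refine Finset.sum_congr rfl fun l _ => by ring
  have t7 : ∑ i : Fin n, ∑ j : Fin n, ∑ k : Fin n, dl j k * ∑ l : Fin n, dl i l * (y i l * y j k)
      = 0 := by
    refine Finset.sum_eq_zero fun i _ => Finset.sum_eq_zero fun j _ => Finset.sum_eq_zero fun k _ => ?_
    rw [sdl i (fun l => y i l * y j k), hdiag]; ring
  have t8 : ∑ i : Fin n, ∑ j : Fin n, ∑ k : Fin n, ∑ l : Fin n, dl j l * (dl i k * (y i k * y j l))
      = 0 := by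
    refine Finset.sum_eq_zero fun i _ => Finset.sum_eq_zero fun j _ => Finset.sum_eq_zero fun k _ => ?_
    rw [sdl j (fun l => dl i k * (y i k * y j l)), hdiag]; ring
  have t9 : ∑ i : Fin n, ∑ j : Fin n, ∑ k : Fin n, ∑ l : Fin n, dl j l * (dl i l * (y i k * y j k))
      = ∑ i, ∑ j, (y i j) ^ 2 := by
    refine Finset.sum_congr rfl fun i _ => ?_
    have h : ∀ j k : Fin n, ∑ l : Fin n, dl j l * (dl i l * (y i k * y j k)) =
        dl i j * (y i k * y j k) := by
      intro j k; rw [sdl j (fun l => dl i l * (y i k * y j k))]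
    simp only [h, ← Finset.mul_sum]
    rw [sdl i (fun j => ∑ k : Fin n, y i k * y j k)]
    refine Finset.sum_congr rfl fun l _ => by ring
  have t10 : ∑ i : Fin n, ∑ j : Fin n, ∑ k : Fin n, dl i k * ∑ l : Fin n, dl i l * (y j l * y j k)
      = ∑ i, ∑ j, (y i j) ^ 2 := by
    have h : ∀ i j : Fin n, ∑ k : Fin n, dl i k * ∑ l : Fin n, dl i l * (y j l * y j k) =
        (y j i) ^ 2 := by
      intro i j
      have : ∀ k : Fin n, ∑ l : Fin n, dl i l * (y j l * y j k) = y j i * y j k := by
        intro k; rw [sdl i (fun l => y j l * y j k)]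
      simp only [this]
      rw [sdl i (fun k => y j i * y j k)]; ring
    simp only [h]
    rw [Finset.sum_comm]
  rw [t1, t2, t3, t4, t5, t6, t7, t8, t9, t10, hS]
  ring

end Crest.Agent.Lib.OrthPoinc
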