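import Mathlib
import Crest.Agent.Lib.OrthPoinc.Int

set_option autoImplicit false

/-!
The special orthogonal group is generated by rotations in coordinate planes.
-/

namespace Crest.Agent.Lib.OrthPoinc

open Matrix

variable {n : ℕ}

/-- right multiplication -/
noncomputable def rmul (V : Matrix (Fin n) (Fin n) ℝ) (U : Mat n) : Mat n :=
  fun i j => (Matrix.of U * V) i j

theorem rmul_apply (V : Matrix (Fin n) (Fin n) ℝ) (U : Mat n) (i j : Fin n) :
    rmul V U i j = ∑ k, U i k * V k j := by simp [rmul, Matrix.mul_apply]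

theorem rmul_rmul (V W : Matrix (Fin n) (Fin n) ℝ) (U : Mat n) :
    rmul W (rmul V U) = rmul (V * W) U := by
  funext i j
  have : (Matrix.of (rmul V U)) = Matrix.of U * V := by ext; rfl
  simp only [rmul] at *
  rw [this, Matrix.mul_assoc]

theorem rmul_one (U : Mat n) : rmul 1 U = U := by
  funext i j; simp [rmul]

/-- The coordinate rotation matrix. -/
noncomputable def Rm (i j : Fin n) (t : ℝ) : Matrix (Fin n) (Fin n) ℝ :=
  Matrix.of (rot i j t (fun a b => if a = b then 1 else 0))

theorem Rm_apply (i j : Fin n) (t : ℝ) (a b : Fin n) :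
    Rm i j t a b = if b = j then Real.cos t * (if a = j then 1 else 0) +
      Real.sin t * (if a = i then 1 else 0)
    else if b = i then Real.cos t * (if a = i then 1 else 0) - Real.sin t * (if a = j then 1 else 0)
    else if a = b then 1 else 0 := rfl

theorem rot_eq_rmul (i j : Fin n) (t : ℝ) (U : Mat n) : rot i j t U = rmul (Rm i j t) U := by
  funext a b
  rw [rmul_apply]
  simp only [Rm_apply]
  unfold rot
  split_ifs with h1 h2
  · simp [mul_add, Finset.sum_add_distrib, mul_comm]
  · simp [mul_sub, Finset.sum_sub_distrib, mul_comm]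
  · simp

theorem rot_rot (i j : Fin n) (hij : i ≠ j) (s t : ℝ) (U : Mat n) :
    rot i j s (rot i j t U) = rot i j (s + t) U := by
  funext a b
  unfold rot
  by_cases h1 : b = j
  · simp only [h1, if_true, if_neg hij, if_pos]
    rw [Real.cos_add, Real.sin_add]; ring
  · by_cases h2 : b = i
    · simp only [h2, if_true, if_neg hij, if_pos]
      rw [Real.cos_add, Real.sin_add]; ring
    · simp [h1, h2]

theorem Rm_mul (i j : Fin n) (hij : i ≠ j) (s t : ℝ) : Rm i j t * Rm i j s = Rm i j (s + t) := by
  have h := rot_rot i j hij s t (fun a b => if a = b then 1 else 0)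
  rw [rot_eq_rmul, rot_eq_rmul, rmul_rmul, rot_eq_rmul] at h
  have h1 : ∀ V : Matrix (Fin n) (Fin n) ℝ, (Matrix.of (rmul V (fun a b => if a = b then 1 else 0))) = V := by
    intro V
    ext a b
    simp [rmul_apply]
  rw [← h1 (Rm i j t * Rm i j s), h, h1]

theorem Rm_zero (i j : Fin n) : Rm i j 0 = 1 := by
  ext a b
  have := congrFun (congrFun (rot_zero i j (fun a b : Fin n => if a = b then (1 : ℝ) else 0)) a) b
  simp only [Rm, Matrix.of_apply, this, Matrix.one_apply]

theorem Rm_transpose (i j : Fin n) (hij : i ≠ j) (t : ℝ) : (Rm i j t)ᵀ = Rm i j (-t) := by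
  ext a b
  rw [Matrix.transpose_apply, Rm_apply, Rm_apply, Real.cos_neg, Real.sin_neg]
  have hji : j ≠ i := hij.symm
  by_cases ha : a = j
  · subst ha
    by_cases hb : b = a
    · subst hb; simp [hji]
    · by_cases hb2 : b = i
      · subst hb2; simp [hb, hji]
      · simp [hb, hb2, Ne.symm hb]
  · by_cases ha2 : a = i
    · subst ha2
      by_cases hb : b = j
      · subst hb; simp [hij, hji]
      · by_cases hb2 : b = a
        · subst hb2; simp [hij]
        · simp [hb, hb2, hij, Ne.symm hb2]
    · by_cases hb : b = j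
      · subst hb; simp [ha, ha2, Ne.symm ha]
      · by_cases hb2 : b = i
        · subst hb2; simp [ha, ha2, Ne.symm ha2, hb]
        · simp [ha, ha2, hb, hb2, eq_comm]

theorem Rm_orth (i j : Fin n) (hij : i ≠ j) (t : ℝ) : (Rm i j t)ᵀ * Rm i j t = 1 := by
  rw [Rm_transpose i j hij, Rm_mul i j hij, add_neg_cancel, Rm_zero]

theorem Rm_mem_orth (i j : Fin n) (hij : i ≠ j) (t : ℝ) :
    Rm i j t ∈ Matrix.orthogonalGroup (Fin n) ℝ := by
  rw [Matrix.mem_orthogonalGroup_iff']
  exact Rm_orth i j hij t

theorem det_sq_of_orth {V : Matrix (Fin n) (Fin n) ℝ} (hV : V ∈ Matrix.orthogonalGroup (Fin n) ℝ) :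
    V.det * V.det = 1 := by
  rw [Matrix.mem_orthogonalGroup_iff'] at hV
  have := congrArg Matrix.det hV
  rwa [Matrix.det_mul, Matrix.det_transpose, Matrix.det_one] at this

theorem Rm_det (i j : Fin n) (hij : i ≠ j) (t : ℝ) : (Rm i j t).det = 1 := by
  have h1 : Rm i j t = Rm i j (t / 2) * Rm i j (t / 2) := by
    rw [Rm_mul i j hij]; congr 1; ring
  rw [h1, Matrix.det_mul]
  exact det_sq_of_orth (Rm_mem_orth i j hij _)

theorem Rm_mem_so (i j : Fin n) (hij : i ≠ j) (t : ℝ) :
    Rm i j t ∈ Matrix.specialOrthogonalGroup (Fin n) ℝ := by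
  rw [Matrix.mem_specialOrthogonalGroup_iff]
  exact ⟨Rm_mem_orth i j hij t, Rm_det i j hij t⟩

/-- The monoid generated by the coordinate rotations. -/
def RGen (n : ℕ) : Submonoid (Matrix (Fin n) (Fin n) ℝ) :=
  Submonoid.closure {R | ∃ (i j : Fin n) (t : ℝ), i ≠ j ∧ R = Rm i j t}

theorem Rm_mem_gen (i j : Fin n) (hij : i ≠ j) (t : ℝ) : Rm i j t ∈ RGen n :=
  Submonoid.subset_closure ⟨i, j, t, hij, rfl⟩

theorem gen_le_so {V : Matrix (Fin n) (Fin n) ℝ} (hV : V ∈ RGen n) :
    V ∈ Matrix.specialOrthogonalGroup (Fin n) ℝ := by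
  have : RGen n ≤ Matrix.specialOrthogonalGroup (Fin n) ℝ := by
    rw [RGen, Submonoid.closure_le]
    rintro R ⟨i, j, t, hij, rfl⟩
    exact Rm_mem_so i j hij t
  exact this hV

theorem gen_inv {V : Matrix (Fin n) (Fin n) ℝ} (hV : V ∈ RGen n) : ∃ W ∈ RGen n, V * W = 1 := by
  induction hV using Submonoid.closure_induction with
  | mem R hR =>
    obtain ⟨i, j, t, hij, rfl⟩ := hR
    refine ⟨Rm i j (-t), Rm_mem_gen i j hij _, ?_⟩
    rw [Rm_mul i j hij, neg_add_cancel, Rm_zero]
  | one => exact ⟨1, Submonoid.one_mem _, by simp⟩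
  | mul V1 V2 _ _ h1 h2 =>
    obtain ⟨W1, hW1, e1⟩ := h1
    obtain ⟨W2, hW2, e2⟩ := h2
    refine ⟨W2 * W1, Submonoid.mul_mem _ hW2 hW1, ?_⟩
    calc V1 * V2 * (W2 * W1) = V1 * (V2 * W2) * W1 := by simp only [Matrix.mul_assoc]
      _ = 1 := by rw [e2, Matrix.mul_one, e1]

theorem mem_gen_of_mul {V R : Matrix (Fin n) (Fin n) ℝ} (hR : R ∈ RGen n) (h : V * R ∈ RGen n) :
    V ∈ RGen n := by
  obtain ⟨W, hW, e⟩ := gen_inv hR
  have : V = V * R * W := by rw [Matrix.mul_assoc, e, Matrix.mul_one]
  rw [this]
  exact Submonoid.mul_mem _ h hW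

theorem so_rows {V : Matrix (Fin n) (Fin n) ℝ} (hV : V ∈ Matrix.specialOrthogonalGroup (Fin n) ℝ)
    (a b : Fin n) : ∑ k, V a k * V b k = if a = b then 1 else 0 := by
  have h1 := (Matrix.mem_specialOrthogonalGroup_iff.mp hV).1
  rw [Matrix.mem_orthogonalGroup_iff] at h1
  have h2 := congrFun (congrFun h1 a) b
  rw [Matrix.mul_apply, Matrix.one_apply] at h2
  simpa using h2

theorem mul_Rm_apply (V : Matrix (Fin n) (Fin n) ℝ) (i j : Fin n) (t : ℝ) (a b : Fin n) :
    (V * Rm i j t) a b = if b = j then Real.cos t * V a j + Real.sin t * V a i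
      else if b = i then Real.cos t * V a i - Real.sin t * V a j else V a b := by
  have h := rot_eq_rmul i j t (V : Mat n)
  have h2 := congrFun (congrFun h a) b
  have h3 : rmul (Rm i j t) (V : Mat n) a b = (V * Rm i j t) a b := rfl
  rw [← h3, ← h2]; rfl

/-- inner elimination -/
theorem elim_row (k : Fin n) (V : Matrix (Fin n) (Fin n) ℝ)
    (hrow : ∀ b, k < b → ∀ c, V b c = if b = c then 1 else 0) (m : ℕ) (hm : m ≤ k.val) :
    ∃ R ∈ RGen n, (∀ b, k < b → ∀ c, (V * R) b c = if b = c then 1 else 0) ∧
      (∀ i : Fin n, i.val < m → (V * R) k i = 0) ∧ (0 < m → 0 ≤ (V * R) k k) := by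
  induction m with
  | zero =>
    refine ⟨1, Submonoid.one_mem _, by simpa using hrow, ?_, ?_⟩
    · intro i hi; exact absurd hi (Nat.not_lt_zero _)
    · intro h; exact absurd h (Nat.not_lt_zero _)
  | succ m ih =>
    obtain ⟨R, hR, h1, h2, h3⟩ := ih (by omega)
    set W := V * R with hW
    have hmn : m < n := by have := k.isLt; omega
    set i : Fin n := ⟨m, hmn⟩ with hi
    have hik : i ≠ k := by
      intro h; rw [Fin.ext_iff] at h; simp [hi] at h; omega
    set z : ℂ := ⟨W k k, W k i⟩ with hz
    set t := Complex.arg z with ht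
    have hcos : Real.cos t * ‖z‖ = W k k := by
      rcases eq_or_ne z 0 with h | h
      · rw [h]; have := congrArg Complex.re h; simp [hz] at this; simp [this]
      · rw [ht, Complex.cos_arg h]
        have : ‖z‖ ≠ 0 := by simpa using h
        rw [div_mul_cancel₀ _ this]
    have hsin : Real.sin t * ‖z‖ = W k i := by
      rcases eq_or_ne z 0 with h | h
      · rw [h]; have := congrArg Complex.im h; simp [hz] at this; simp [this]
      · rw [ht, Complex.sin_arg]
        have : ‖z‖ ≠ 0 := by simpa using h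
        rw [div_mul_cancel₀ _ this]
    refine ⟨R * Rm i k t, Submonoid.mul_mem _ hR (Rm_mem_gen i k hik t), ?_, ?_, ?_⟩
    · intro b hb c
      rw [← Matrix.mul_assoc, ← hW, mul_Rm_apply]
      have hbk : b ≠ k := hb.ne'
      have hbi : b ≠ i := by
        intro h
        rw [h, Fin.lt_def] at hb
        simp [hi] at hb
        omega
      rw [h1 b hb k, h1 b hb i, h1 b hb c, if_neg hbk, if_neg hbi]
      by_cases q1 : c = k
      · rw [if_pos q1, if_neg (by rw [q1]; exact hbk)]; ring
      · rw [if_neg q1]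
        by_cases q2 : c = i
        · rw [if_pos q2, if_neg (by rw [q2]; exact hbi)]; ring
        · rw [if_neg q2]
    · intro i' hi'
      rw [← Matrix.mul_assoc, ← hW, mul_Rm_apply]
      have hi'k : i' ≠ k := by
        intro h; rw [h] at hi'; omega
      rw [if_neg hi'k]
      by_cases h : i' = i
      · rw [if_pos h, ← hcos, ← hsin]; ring
      · rw [if_neg h]
        apply h2
        have : i'.val ≠ m := fun h' => h (Fin.ext h')
        omega
    · intro _
      rw [← Matrix.mul_assoc, ← hW, mul_Rm_apply, if_pos rfl, ← hcos, ← hsin]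
      have : Real.cos t * (Real.cos t * ‖z‖) + Real.sin t * (Real.sin t * ‖z‖) = ‖z‖ := by
        have := Real.cos_sq_add_sin_sq t
        linear_combination ‖z‖ * this
      rw [this]
      exact norm_nonneg _

/-- `SO(n)` is generated by coordinate rotations. -/
theorem so_le_gen_aux (k : ℕ) (hk : k ≤ n) (hk1 : 1 ≤ k) (V : Matrix (Fin n) (Fin n) ℝ)
    (hV : V ∈ Matrix.specialOrthogonalGroup (Fin n) ℝ)
    (hrow : ∀ b : Fin n, k ≤ b.val → ∀ c, V b c = if b = c then 1 else 0) : V ∈ RGen n := by
  induction k, hk1 using Nat.le_induction generalizing V with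
  | base =>
    -- all rows except the first are basis vectors
    have hn : 0 < n := by omega
    set z : Fin n := ⟨0, hn⟩ with hz
    have h0 : ∀ b, b ≠ z → V z b = 0 := by
      intro b hb
      have hb1 : 1 ≤ b.val := by
        rcases Nat.eq_zero_or_pos b.val with h | h
        · exact absurd (Fin.ext h) hb
        · exact h
      have h1 := so_rows hV z b
      rw [if_neg (Ne.symm hb)] at h1
      simp only [hrow b hb1] at h1
      simpa using h1
    have hdiag : V = Matrix.diagonal (fun b => if b = z then V z z else 1) := by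
      ext a b
      rw [Matrix.diagonal_apply]
      by_cases ha : a = z
      · subst ha
        by_cases hb : b = z
        · subst hb; simp
        · rw [h0 b hb, if_neg (Ne.symm hb)]
      · have ha1 : 1 ≤ a.val := by
          rcases Nat.eq_zero_or_pos a.val with h | h
          · exact absurd (Fin.ext h) ha
          · exact h
        rw [hrow a ha1 b]
        split_ifs <;> simp_all
    have hdet := (Matrix.mem_specialOrthogonalGroup_iff.mp hV).2
    have hdet2 : V.det = V z z := by
      conv_lhs => rw [hdiag]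
      rw [Matrix.det_diagonal]
      simp
    have hzz : V z z = 1 := by rw [← hdet2, hdet]
    have : V = 1 := by
      rw [hdiag, hzz]
      ext a b
      rw [Matrix.diagonal_apply, Matrix.one_apply]
      simp
    rw [this]
    exact Submonoid.one_mem _
  | succ k hk1 ih =>
    have hkn : k < n := by omega
    set kk : Fin n := ⟨k, hkn⟩ with hkk
    obtain ⟨R, hR, h1, h2, h3⟩ := elim_row kk V (fun b hb c => hrow b (by
      rw [Fin.lt_def] at hb; simpa [hkk] using hb) c) k le_rfl
    apply mem_gen_of_mul hR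
    have hW : V * R ∈ Matrix.specialOrthogonalGroup (Fin n) ℝ :=
      Submonoid.mul_mem _ hV (gen_le_so hR)
    apply ih (by omega) _ hW
    intro b hb c
    rcases eq_or_lt_of_le hb with h | h
    · have hbk : b = kk := Fin.ext h.symm
      subst hbk
      have hz : ∀ c, c ≠ kk → (V * R) kk c = 0 := by
        intro c hc
        rcases lt_or_gt_of_ne (fun h' => hc (Fin.ext h') : c.val ≠ kk.val) with h' | h'
        · exact h2 c (by simpa [hkk] using h')
        · have h5 := so_rows hW kk c
          rw [if_neg (Ne.symm hc)] at h5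
          simp only [h1 c (by rw [Fin.lt_def]; exact h')] at h5
          simpa using h5
      have hnorm := so_rows hW kk kk
      rw [if_pos rfl, Finset.sum_eq_single kk (fun b _ hb => by rw [hz b hb]; ring)
        (fun h => absurd (Finset.mem_univ _) h)] at hnorm
      have h6 := h3 (by omega)
      have h7 : (V * R) kk kk = 1 := by nlinarith
      by_cases hc : kk = c
      · rw [← hc, if_pos rfl]; exact h7
      · rw [if_neg hc]; exact hz c (Ne.symm hc)
    · exact h1 b (by rw [Fin.lt_def]; exact h) c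

theorem so_le_gen (hn : 1 ≤ n) {V : Matrix (Fin n) (Fin n) ℝ}
    (hV : V ∈ Matrix.specialOrthogonalGroup (Fin n) ℝ) : V ∈ RGen n :=
  so_le_gen_aux n le_rfl hn V hV (fun b hb _ => absurd b.isLt (by omega))

end Crest.Agent.Lib.OrthPoinc
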