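import Mathlib
import Crest.Agent.Lib.OrthPoinc.Int

set_option autoImplicit false

/-!
The Bochner inequality and the spectral gap for polynomials, up to a zero-energy polynomial.
-/

namespace Crest.Agent.Lib.OrthPoinc

open MvPolynomial MeasureTheory

variable {n : ℕ} {μ : Measure (Mat n)} [IsProbabilityMeasure μ]

theorem integrable_ev_sq (hμ : ∀ᵐ U ∂μ, ∀ a b, |U a b| ≤ 1) (p : PolyM n) :
    Integrable (fun U => (ev p U) ^ 2) μ :=
  (integrable_ev hμ (p ^ 2)).congr (Filter.Eventually.of_forall fun U => ev_pow p 2 U)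

theorem integral_Gam (hμ : RotInv μ) (p : PolyM n) :
    ∫ U, Gam p U ∂μ = ∑ i : Fin n, ∑ j : Fin n, Bf μ hμ.bdd (Xd i j p) (Xd i j p) := by
  unfold Gam
  have hi : ∀ i j : Fin n, Integrable (fun U => (ev (Xd i j p) U) ^ 2) μ := by
    intro i j
    exact integrable_ev_sq hμ.bdd (Xd i j p)
  rw [integral_finsetSum _ (fun i _ => integrable_finsetSum _ fun j _ => hi i j)]
  refine Finset.sum_congr rfl fun i _ => ?_
  rw [integral_finsetSum _ (fun j _ => hi i j)]
  refine Finset.sum_congr rfl fun j _ => ?_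
  rw [Bf_apply]
  congr 1; funext U; ring

theorem Bf_Cas_self (hμ : RotInv μ) (p : PolyM n) :
    Bf μ hμ.bdd (Cas p) p = - ∫ U, Gam p U ∂μ := by
  rw [Bf_Cas hμ, integral_Gam hμ]

theorem integral_Gam_nonneg (p : PolyM n) : 0 ≤ ∫ U, Gam p U ∂μ :=
  integral_nonneg fun U => Finset.sum_nonneg fun i _ => Finset.sum_nonneg fun j _ => sq_nonneg _

theorem bochner (hμ : RotInv μ) (p : PolyM n) :
    ((n : ℝ) - 2) * ∫ U, Gam p U ∂μ ≤ Bf μ hμ.bdd (Cas p) (Cas p) := by
  have hX : ∀ i j : Fin n, Integrable (fun U => (ev (Xd i j p) U) ^ 2) μ := by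
    intro i j
    exact integrable_ev_sq hμ.bdd (Xd i j p)
  have hXX : ∀ i j k l : Fin n, Integrable (fun U => (ev (Xd i j (Xd k l p)) U) ^ 2) μ := by
    intro i j k l
    exact integrable_ev_sq hμ.bdd (Xd i j (Xd k l p))
  have h1 : Bf μ hμ.bdd (Cas p) (Cas p) =
      ∑ i : Fin n, ∑ j : Fin n, ∑ k : Fin n, ∑ l : Fin n,
        ∫ U, (ev (Xd k l (Xd i j p)) U) ^ 2 ∂μ := by
    rw [Bf_Cas hμ, ← Finset.sum_neg_distrib]
    refine Finset.sum_congr rfl fun i _ => ?_
    rw [← Finset.sum_neg_distrib]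
    refine Finset.sum_congr rfl fun j _ => ?_
    rw [← Cas_comm, Bf_symm hμ.bdd, Bf_Cas hμ, neg_neg]
    refine Finset.sum_congr rfl fun k _ => Finset.sum_congr rfl fun l _ => ?_
    rw [Bf_apply]
    congr 1; funext U; ring
  have h2 : Bf μ hμ.bdd (Cas p) (Cas p) =
      ∑ i : Fin n, ∑ j : Fin n, ∑ k : Fin n, ∑ l : Fin n,
        ∫ U, (ev (Xd i j (Xd k l p)) U) ^ 2 ∂μ := by
    rw [h1]
    have e : ∀ f : Fin n → Fin n → Fin n → Fin n → ℝ,
        ∑ i : Fin n, ∑ j : Fin n, ∑ k : Fin n, ∑ l : Fin n, f k l i j =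
        ∑ i : Fin n, ∑ j : Fin n, ∑ k : Fin n, ∑ l : Fin n, f i j k l := by
      intro f
      calc ∑ i : Fin n, ∑ j : Fin n, ∑ k : Fin n, ∑ l : Fin n, f k l i j
          = ∑ i : Fin n, ∑ k : Fin n, ∑ j : Fin n, ∑ l : Fin n, f k l i j := by
            refine Finset.sum_congr rfl fun i _ => Finset.sum_comm
        _ = ∑ k : Fin n, ∑ i : Fin n, ∑ j : Fin n, ∑ l : Fin n, f k l i j := Finset.sum_comm
        _ = ∑ k : Fin n, ∑ l : Fin n, ∑ i : Fin n, ∑ j : Fin n, f k l i j := by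
            refine Finset.sum_congr rfl fun k _ => ?_
            calc ∑ i : Fin n, ∑ j : Fin n, ∑ l : Fin n, f k l i j
                = ∑ i : Fin n, ∑ l : Fin n, ∑ j : Fin n, f k l i j :=
                  Finset.sum_congr rfl fun i _ => Finset.sum_comm
              _ = ∑ l : Fin n, ∑ i : Fin n, ∑ j : Fin n, f k l i j := Finset.sum_comm
    exact e (fun i j k l => ∫ U, (ev (Xd i j (Xd k l p)) U) ^ 2 ∂μ)
  have h3 : ((n : ℝ) - 2) * ∫ U, Gam p U ∂μ =
      ∑ i : Fin n, ∑ j : Fin n, ∑ k : Fin n, ∑ l : Fin n,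
      ∫ U, (1 / 4) * (ev (Xd i j (Xd k l p)) U - ev (Xd k l (Xd i j p)) U) ^ 2 ∂μ := by
    have hint : ∀ i j k l : Fin n, Integrable
        (fun U => (1 / 4 : ℝ) * (ev (Xd i j (Xd k l p)) U - ev (Xd k l (Xd i j p)) U) ^ 2) μ := by
      intro i j k l
      have := (integrable_ev hμ.bdd ((Xd i j (Xd k l p) - Xd k l (Xd i j p)) ^ 2)).const_mul (1 / 4)
      simpa only [ev_pow, ev_sub] using this
    have e1 : ∑ i : Fin n, ∑ j : Fin n, ∑ k : Fin n, ∑ l : Fin n,
        ∫ U, (1 / 4) * (ev (Xd i j (Xd k l p)) U - ev (Xd k l (Xd i j p)) U) ^ 2 ∂μ =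
        ∫ U, ∑ i : Fin n, ∑ j : Fin n, ∑ k : Fin n, ∑ l : Fin n,
        (1 / 4) * (ev (Xd i j (Xd k l p)) U - ev (Xd k l (Xd i j p)) U) ^ 2 ∂μ := by
      rw [integral_finsetSum]
      · refine Finset.sum_congr rfl fun i _ => ?_
        rw [integral_finsetSum]
        · refine Finset.sum_congr rfl fun j _ => ?_
          rw [integral_finsetSum]
          · refine Finset.sum_congr rfl fun k _ => ?_
            rw [integral_finsetSum]
            intro l _
            exact hint i j k l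
          · intro k _
            exact integrable_finsetSum _ fun l _ => hint i j k l
        · intro j _
          exact integrable_finsetSum _ fun k _ => integrable_finsetSum _ fun l _ => hint i j k l
      · intro i _
        exact integrable_finsetSum _ fun j _ => integrable_finsetSum _ fun k _ =>
          integrable_finsetSum _ fun l _ => hint i j k l
    rw [e1, ← integral_const_mul]
    congr 1
    funext U
    have := comm_sum p U
    simp only [← Finset.mul_sum]
    rw [this]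
    ring
  have h4 : ((n : ℝ) - 2) * ∫ U, Gam p U ∂μ ≤
      ∑ i : Fin n, ∑ j : Fin n, ∑ k : Fin n, ∑ l : Fin n,
      ((1 / 2) * ∫ U, (ev (Xd i j (Xd k l p)) U) ^ 2 ∂μ +
        (1 / 2) * ∫ U, (ev (Xd k l (Xd i j p)) U) ^ 2 ∂μ) := by
    rw [h3]
    refine Finset.sum_le_sum fun i _ => Finset.sum_le_sum fun j _ => Finset.sum_le_sum fun k _ =>
      Finset.sum_le_sum fun l _ => ?_
    rw [← integral_const_mul, ← integral_const_mul, ← integral_add ((hXX i j k l).const_mul _)
      ((hXX k l i j).const_mul _)]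
    refine integral_mono ?_ ?_ ?_
    · have := (integrable_ev hμ.bdd ((Xd i j (Xd k l p) - Xd k l (Xd i j p)) ^ 2)).const_mul (1 / 4)
      simpa only [ev_pow, ev_sub] using this
    · exact ((hXX i j k l).const_mul _).add ((hXX k l i j).const_mul _)
    · intro U
      simp only
      nlinarith [sq_nonneg (ev (Xd i j (Xd k l p)) U + ev (Xd k l (Xd i j p)) U)]
  refine h4.trans (le_of_eq ?_)
  simp only [Finset.sum_add_distrib, ← Finset.mul_sum]
  rw [← h2, ← h1]
  ring

/-- Spectral gap for polynomials, up to a zero energy polynomial. -/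
theorem poly_gap (hμ : RotInv μ) (hn : 2 < n) (p : PolyM n) :
    ∃ f0 : PolyM n, (∀ i j, ∀ᵐ U ∂μ, ev (Xd i j f0) U = 0) ∧
      ((n : ℝ) - 2) * ∫ U, (ev p U - ev f0 U) ^ 2 ∂μ ≤ ∫ U, Gam p U ∂μ := by
  set d := p.totalDegree with hd
  set V := restrictTotalDegree (Fin n × Fin n) ℝ d with hV
  have hmemV : ∀ q : PolyM n, q ∈ V ↔ q.totalDegree ≤ d := fun q =>
    mem_restrictTotalDegree _ _ _
  have hCasV : ∀ q ∈ V, (-(Cas (n := n))) q ∈ V := by
    intro q hq
    rw [LinearMap.neg_apply, Cas_apply]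
    refine V.neg_mem (V.sum_mem fun i _ => V.sum_mem fun j _ => ?_)
    rw [hmemV] at hq ⊢
    exact Xd_totalDegree_le i j _ d (Xd_totalDegree_le i j q d hq)
  set T : V →ₗ[ℝ] V := (-(Cas (n := n))).restrict hCasV with hTdef
  set B : LinearMap.BilinForm ℝ V := (Bf μ hμ.bdd).comp V.subtype V.subtype with hBdef
  have hB : ∀ x y : V, B x y = Bf μ hμ.bdd (x : PolyM n) (y : PolyM n) := fun x y => by
    simp [hBdef]
  have hTv : ∀ x : V, ((T x : V) : PolyM n) = - Cas (x : PolyM n) := fun x => by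
    simp [hTdef]
  have hTx : ∀ x : V, B (T x) x = ∫ U, Gam (x : PolyM n) U ∂μ := by
    intro x
    rw [hB, hTv, map_neg, LinearMap.neg_apply, Bf_Cas_self hμ, neg_neg]
  have hn' : (0 : ℝ) < (n : ℝ) - 2 := by
    have : (2 : ℝ) < n := by exact_mod_cast hn
    linarith
  obtain ⟨f0, hf0, hle⟩ := gap_of_sq B (fun x y => by rw [hB, hB]; exact Bf_symm _ _ _)
    (fun x => by rw [hB]; exact Bf_self_nonneg _ _) T
    (fun x y => by
      rw [hB, hB, hTv, hTv, map_neg, map_neg, LinearMap.neg_apply, Bf_Cas_symm hμ])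
    (fun x => by rw [hTx]; exact integral_Gam_nonneg _) ((n : ℝ) - 2) hn'
    (fun x => by
      rw [hTx, hB, hTv, map_neg, map_neg, LinearMap.neg_apply, neg_neg]
      exact bochner hμ _) ⟨p, by rw [hmemV]⟩
  refine ⟨(f0 : PolyM n), ?_, ?_⟩
  · rw [hTx, integral_Gam hμ] at hf0
    have hnn : ∀ i j : Fin n, 0 ≤ Bf μ hμ.bdd (Xd i j (f0 : PolyM n)) (Xd i j (f0 : PolyM n)) :=
      fun i j => Bf_self_nonneg _ _
    intro i j
    have h1 : Bf μ hμ.bdd (Xd i j (f0 : PolyM n)) (Xd i j (f0 : PolyM n)) = 0 := by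
      have h2 := (Finset.sum_eq_zero_iff_of_nonneg (fun i _ =>
        Finset.sum_nonneg fun j _ => hnn i j)).mp hf0 i (Finset.mem_univ _)
      exact (Finset.sum_eq_zero_iff_of_nonneg (fun j _ => hnn i j)).mp h2 j (Finset.mem_univ _)
    rw [Bf_apply] at h1
    have h3 : (fun U => ev (Xd i j (f0 : PolyM n)) U * ev (Xd i j (f0 : PolyM n)) U) =ᵐ[μ] 0 := by
      rw [← integral_eq_zero_iff_of_nonneg]
      · exact h1
      · intro U; exact mul_self_nonneg _
      · simpa only [← ev_mul] using integrable_ev hμ.bdd (Xd i j (f0 : PolyM n) * Xd i j (f0 : PolyM n))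
    filter_upwards [h3] with U hU
    simpa using hU
  · rw [hTx] at hle
    have h1 : B (⟨p, by rw [hmemV]⟩ - f0) (⟨p, by rw [hmemV]⟩ - f0) =
        ∫ U, (ev p U - ev (f0 : PolyM n) U) ^ 2 ∂μ := by
      rw [hB, Bf_apply]
      congr 1; funext U
      rw [Submodule.coe_sub, ev_sub]
      ring
    rw [h1] at hle
    exact hle

end Crest.Agent.Lib.OrthPoinc
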