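import Mathlib
import Crest.Agent.Lib.OrthPoinc.Poly
import Crest.Agent.Lib.OrthPoinc.Gen

set_option autoImplicit false

/-!
Zero-energy polynomials are almost surely constant; the Poincare inequality for polynomials.
-/

namespace Crest.Agent.Lib.OrthPoinc

open MvPolynomial MeasureTheory

variable {n : ℕ}

/-- A law on `SO(n)` which is invariant under right multiplication by `SO(n)`. -/
structure SOInv (μ : Measure (Mat n)) : Prop where
  mem : ∀ᵐ U ∂μ, Matrix.of U ∈ Matrix.specialOrthogonalGroup (Fin n) ℝ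
  inv : ∀ V ∈ Matrix.specialOrthogonalGroup (Fin n) ℝ, μ.map (rmul V) = μ

theorem continuous_rmul (V : Matrix (Fin n) (Fin n) ℝ) : Continuous (rmul V) := by
  refine continuous_pi fun i => continuous_pi fun j => ?_
  simp only [rmul_apply]
  fun_prop

theorem abs_le_one_of_rows {U : Mat n} (h : ∀ a : Fin n, ∑ k, U a k * U a k = 1) (a b : Fin n) :
    |U a b| ≤ 1 := by
  have h1 : U a b * U a b ≤ ∑ k, U a k * U a k :=
    Finset.single_le_sum (f := fun k => U a k * U a k) (fun k _ => mul_self_nonneg _)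
      (Finset.mem_univ b)
  rw [h a] at h1
  rw [abs_le_one_iff_mul_self_le_one]
  exact h1

theorem abs_le_one_of_so {U : Mat n}
    (hU : Matrix.of U ∈ Matrix.specialOrthogonalGroup (Fin n) ℝ) (a b : Fin n) : |U a b| ≤ 1 := by
  refine abs_le_one_of_rows (fun a => ?_) a b
  have := so_rows hU a a
  rw [if_pos rfl] at this
  exact this

theorem SOInv.rotInv {μ : Measure (Mat n)} (hμ : SOInv μ) : RotInv μ where
  bdd := by
    filter_upwards [hμ.mem] with U hU a b
    exact abs_le_one_of_so hU a b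
  inv i j hij t := by
    have : rot i j t = rmul (Rm i j t) := by funext U; exact rot_eq_rmul i j t U
    rw [this]
    exact hμ.inv _ (Rm_mem_so i j hij t)

theorem SOInv.mp {μ : Measure (Mat n)} (hμ : SOInv μ) {V : Matrix (Fin n) (Fin n) ℝ}
    (hV : V ∈ Matrix.specialOrthogonalGroup (Fin n) ℝ) : MeasurePreserving (rmul V) μ μ :=
  ⟨(continuous_rmul V).measurable, hμ.inv V hV⟩

variable {μ : Measure (Mat n)} [IsProbabilityMeasure μ]

omit [IsProbabilityMeasure μ] in
theorem continuous_rot_t (i j : Fin n) (U : Mat n) : Continuous (fun s : ℝ => rot i j s U) := by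
  unfold rot
  refine continuous_pi fun a => continuous_pi fun b => ?_
  split_ifs <;> fun_prop

theorem ae_rot_invariant (hμ : RotInv μ) (i j : Fin n) (hij : i ≠ j) (f0 : PolyM n)
    (hz : ∀ᵐ U ∂μ, ev (Xd i j f0) U = 0) (t : ℝ) :
    ∀ᵐ U ∂μ, ev f0 (rot i j t U) = ev f0 U := by
  have h1 : ∀ s : ℝ, ∀ᵐ U ∂μ, ev (Xd i j f0) (rot i j s U) = 0 := by
    intro s
    have hmp : MeasurePreserving (rot i j s) μ μ :=
      ⟨(continuous_rot i j s).measurable, hμ.inv i j hij s⟩
    exact hmp.quasiMeasurePreserving.ae hz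
  have hcont : Continuous (fun z : ℝ × Mat n => ev (Xd i j f0) (rot i j z.1 z.2)) :=
    (continuous_ev _).comp (continuous_rot_joint i j)
  have h2 : ∀ᵐ U ∂μ, ∀ᵐ s ∂(volume : Measure ℝ), ev (Xd i j f0) (rot i j s U) = 0 := by
    rw [← Measure.ae_ae_comm (p := fun s U => ev (Xd i j f0) (rot i j s U) = 0)]
    · exact Filter.Eventually.of_forall h1
    · exact measurableSet_eq_fun hcont.measurable measurable_const
  filter_upwards [h2] with U hU
  have h3 : ∫ s in (0 : ℝ)..t, ev (Xd i j f0) (rot i j s U) =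
      ev f0 (rot i j t U) - ev f0 (rot i j 0 U) := by
    apply intervalIntegral.integral_eq_sub_of_hasDerivAt
    · intro s _
      exact hasDerivAt_ev_rot i j hij f0 U s
    · have hcs : Continuous fun s : ℝ => ev (Xd i j f0) (rot i j s U) :=
        (continuous_ev (Xd i j f0)).comp (continuous_rot_t i j U)
      exact hcs.intervalIntegrable _ _
  have h4 : ∫ s in (0 : ℝ)..t, ev (Xd i j f0) (rot i j s U) = 0 := by
    rw [intervalIntegral.integral_congr_ae (g := fun _ => (0 : ℝ))]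
    · simp
    · filter_upwards [hU] with s hs _
      exact hs
  rw [h4, rot_zero] at h3
  linarith

theorem ae_rmul_invariant (hμ : SOInv μ) (hn : 1 ≤ n) (f0 : PolyM n)
    (hz : ∀ i j, ∀ᵐ U ∂μ, ev (Xd i j f0) U = 0) (V : Matrix (Fin n) (Fin n) ℝ)
    (hV : V ∈ Matrix.specialOrthogonalGroup (Fin n) ℝ) :
    ∀ᵐ U ∂μ, ev f0 (rmul V U) = ev f0 U := by
  have hV' := so_le_gen hn hV
  clear hV
  unfold RGen at hV'
  induction hV' using Submonoid.closure_induction with
  | mem R hR =>
    obtain ⟨i, j, t, hij, rfl⟩ := hR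
    have := ae_rot_invariant hμ.rotInv i j hij f0 (hz i j) t
    filter_upwards [this] with U hU
    rw [← rot_eq_rmul]; exact hU
  | one => exact Filter.Eventually.of_forall fun U => by rw [rmul_one]
  | mul V1 V2 hV1 hV2 h1 h2 =>
    have hmp := hμ.mp (gen_le_so hV1)
    have h3 := hmp.quasiMeasurePreserving.ae h2
    filter_upwards [h1, h3] with U hU1 hU3
    rw [← rmul_rmul, hU3, hU1]

theorem transpose_mem_so {V : Matrix (Fin n) (Fin n) ℝ}
    (hV : V ∈ Matrix.specialOrthogonalGroup (Fin n) ℝ) :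
    V.transpose ∈ Matrix.specialOrthogonalGroup (Fin n) ℝ := by
  rw [Matrix.mem_specialOrthogonalGroup_iff] at hV ⊢
  refine ⟨?_, by rw [Matrix.det_transpose]; exact hV.2⟩
  have h1 := hV.1
  rw [Matrix.mem_orthogonalGroup_iff] at h1
  rw [Matrix.mem_orthogonalGroup_iff']
  rw [Matrix.transpose_transpose]
  exact h1

theorem ae_const (hμ : SOInv μ) (hn : 1 ≤ n) (f0 : PolyM n)
    (hz : ∀ i j, ∀ᵐ U ∂μ, ev (Xd i j f0) U = 0) :
    ∀ᵐ U ∂μ, ev f0 U = ∫ V, ev f0 (fun i j => V j i) ∂μ := by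
  have h1 : ∀ᵐ V ∂μ, ∀ᵐ U ∂μ, ev f0 (rmul (Matrix.of V).transpose U) = ev f0 U := by
    filter_upwards [hμ.mem] with V hV
    exact ae_rmul_invariant hμ hn f0 hz _ (transpose_mem_so hV)
  have hc1 : Continuous (fun z : Mat n × Mat n => ev f0 (rmul (Matrix.of z.1).transpose z.2)) := by
    refine (continuous_ev f0).comp ?_
    refine continuous_pi fun i => continuous_pi fun j => ?_
    simp only [rmul_apply, Matrix.transpose_apply, Matrix.of_apply]
    fun_prop
  have h2 : ∀ᵐ U ∂μ, ∀ᵐ V ∂μ, ev f0 (rmul (Matrix.of V).transpose U) = ev f0 U := by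
    rw [← Measure.ae_ae_comm (p := fun V U => ev f0 (rmul (Matrix.of V).transpose U) = ev f0 U)]
    · exact h1
    · exact measurableSet_eq_fun hc1.measurable
        (((continuous_ev f0).comp continuous_snd).measurable)
  filter_upwards [h2, hμ.mem] with U hU hUso
  set g : Mat n → ℝ := fun W => ev f0 (fun i j => W j i) with hg
  have hgc : Continuous g := (continuous_ev f0).comp (by fun_prop)
  have e1 : ev f0 U = ∫ V, ev f0 (rmul (Matrix.of V).transpose U) ∂μ := by
    rw [integral_congr_ae hU]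
    simp
  have e2 : ∀ V : Mat n, ev f0 (rmul (Matrix.of V).transpose U) =
      g (rmul (Matrix.of U).transpose V) := by
    intro V
    simp only [hg]
    congr 1
    funext i j
    simp only [rmul_apply, Matrix.transpose_apply, Matrix.of_apply]
    exact Finset.sum_congr rfl fun k _ => mul_comm _ _
  rw [e1]
  simp only [e2]
  have hmp := hμ.mp (transpose_mem_so hUso)
  have e3 : ∫ V, g (rmul (Matrix.of U).transpose V) ∂μ =
      ∫ V, g V ∂(μ.map (rmul (Matrix.of U).transpose)) :=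
    (integral_map hmp.measurable.aemeasurable hgc.aestronglyMeasurable).symm
  rw [e3, hmp.map_eq]

theorem variance_le (hb : ∀ᵐ U ∂μ, ∀ a b, |U a b| ≤ 1) (p : PolyM n) (c : ℝ) :
    ∫ U, (ev p U - ∫ V, ev p V ∂μ) ^ 2 ∂μ ≤ ∫ U, (ev p U - c) ^ 2 ∂μ := by
  set m := ∫ V, ev p V ∂μ with hm
  have hi := integrable_ev hb p
  have hi2 := integrable_ev_sq hb p
  have e : ∀ a : ℝ, ∫ U, (ev p U - a) ^ 2 ∂μ = ∫ U, (ev p U) ^ 2 ∂μ - 2 * a * m + a ^ 2 := by
    intro a
    have h1 : ∀ U, (ev p U - a) ^ 2 = (ev p U) ^ 2 - 2 * a * ev p U + a ^ 2 := fun U => by ring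
    simp only [h1]
    have h2 : Integrable (fun U => 2 * a * ev p U) μ := hi.const_mul _
    rw [integral_add (f := fun U => (ev p U) ^ 2 - 2 * a * ev p U) (g := fun _ => a ^ 2)
      (hi2.sub h2) (integrable_const _),
      integral_sub (f := fun U => (ev p U) ^ 2) (g := fun U => 2 * a * ev p U) hi2 h2,
      integral_const_mul]
    simp [hm]
  rw [e m, e c]
  nlinarith [sq_nonneg (m - c)]

/-- **Poincare inequality** on `SO(n)` for polynomials. -/
theorem poly_poincare (hμ : SOInv μ) (hn : 2 < n) (p : PolyM n) :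
    ((n : ℝ) - 2) * ∫ U, (ev p U - ∫ V, ev p V ∂μ) ^ 2 ∂μ ≤ ∫ U, Gam p U ∂μ := by
  obtain ⟨f0, hz, hle⟩ := poly_gap hμ.rotInv hn p
  have hc := ae_const hμ (by omega) f0 hz
  have hn' : (0 : ℝ) ≤ (n : ℝ) - 2 := by
    have : (2 : ℝ) < n := by exact_mod_cast hn
    linarith
  set c := ∫ V, ev f0 (fun i j => V j i) ∂μ with hcdef
  have h1 : ∫ U, (ev p U - ev f0 U) ^ 2 ∂μ = ∫ U, (ev p U - c) ^ 2 ∂μ := by
    apply integral_congr_ae
    filter_upwards [hc] with U hU
    rw [hU]
  rw [h1] at hle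
  exact (mul_le_mul_of_nonneg_left (variance_le hμ.rotInv.bdd p c) hn').trans hle

end Crest.Agent.Lib.OrthPoinc
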