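import Mathlib
import Crest.Agent.Lib.OrthPoinc.Const

set_option autoImplicit false

/-!
The class `C1cl` of functions that are `C^1`-approximable by polynomials, closure properties, and
the Poincare inequality for this class.
-/

namespace Crest.Agent.Lib.OrthPoinc

open MeasureTheory

/-- one-variable `C^1` Weierstrass theorem -/
theorem exists_poly_C1 (a b : ℝ) (hab : a ≤ b) (g g' : ℝ → ℝ)
    (hg : ∀ x ∈ Set.Icc a b, HasDerivAt g (g' x) x) (hg' : ContinuousOn g' (Set.Icc a b))
    (ε : ℝ) (hε : 0 < ε) :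
    ∃ P : Polynomial ℝ, ∀ x ∈ Set.Icc a b, |P.eval x - g x| ≤ ε ∧
      |P.derivative.eval x - g' x| ≤ ε := by
  set δ := ε / (b - a + 1) with hδdef
  have hba : 0 < b - a + 1 := by linarith
  have hδ : 0 < δ := div_pos hε hba
  obtain ⟨Q, hQ⟩ := exists_polynomial_near_of_continuousOn a b g' hg' δ hδ
  -- antiderivative
  obtain ⟨P0, hP0⟩ : ∃ P0 : Polynomial ℝ, P0.derivative = Q := by
    refine ⟨Q.sum fun n c => Polynomial.monomial (n + 1) (c / ((n : ℝ) + 1)), ?_⟩
    rw [Polynomial.sum, Polynomial.derivative_sum]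
    conv_rhs => rw [Q.as_sum_support]
    refine Finset.sum_congr rfl fun n _ => ?_
    rw [Polynomial.derivative_monomial]
    congr 1
    push_cast
    have : ((n : ℝ) + 1) ≠ 0 := by positivity
    field_simp
  set P : Polynomial ℝ := P0 + Polynomial.C (g a - P0.eval a) with hP
  have hPd : P.derivative = Q := by simp [hP, hP0]
  have hδε : δ ≤ ε := by
    rw [hδdef, div_le_iff₀ hba]
    nlinarith
  refine ⟨P, fun x hx => ⟨?_, ?_⟩⟩
  · -- mean value inequality for `P - g`
    have hder : ∀ y ∈ Set.Icc a b, HasDerivWithinAt (fun y => P.eval y - g y)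
        (Q.eval y - g' y) (Set.Icc a b) y := by
      intro y hy
      have h1 := P.hasDerivAt y
      rw [hPd] at h1
      exact (h1.sub (hg y hy)).hasDerivWithinAt
    have hbound : ∀ y ∈ Set.Icc a b, ‖Q.eval y - g' y‖ ≤ δ := by
      intro y hy
      rw [Real.norm_eq_abs]
      exact (hQ y hy).le
    have := (convex_Icc a b).norm_image_sub_le_of_norm_hasDerivWithin_le hder hbound
      (Set.left_mem_Icc.mpr hab) hx
    have h0 : P.eval a - g a = 0 := by simp [hP]
    rw [h0, sub_zero, Real.norm_eq_abs, Real.norm_eq_abs] at this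
    refine this.trans ?_
    have h2 : |x - a| ≤ b - a := by
      rw [abs_of_nonneg (by linarith [hx.1])]; linarith [hx.2]
    calc δ * |x - a| ≤ δ * (b - a + 1) := by gcongr; linarith
      _ = ε := by rw [hδdef]; field_simp
  · rw [hPd]
    exact (hQ x hx).le.trans hδε

variable {n : ℕ}

/-- `f` is `C^1`-approximable by polynomials on the cube of matrices with entries in `[-1,1]`;
`Df i j` are its derivatives in the directions of the rotations. -/
def C1cl (f : Mat n → ℝ) (Df : Fin n → Fin n → Mat n → ℝ) : Prop :=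
  ∀ ε : ℝ, 0 < ε → ∃ p : PolyM n, ∀ U : Mat n, (∀ a b, |U a b| ≤ 1) →
    |ev p U - f U| ≤ ε ∧ ∀ i j, |ev (Xd i j p) U - Df i j U| ≤ ε

theorem C1cl.poly (p : PolyM n) : C1cl (ev p) (fun i j => ev (Xd i j p)) := by
  intro ε hε
  refine ⟨p, fun U _ => ⟨?_, fun i j => ?_⟩⟩ <;> simp [hε.le]

theorem C1cl.congr {f g : Mat n → ℝ} {Df Dg : Fin n → Fin n → Mat n → ℝ} (hf : C1cl f Df)
    (h1 : ∀ U : Mat n, (∀ a b, |U a b| ≤ 1) → f U = g U)
    (h2 : ∀ U : Mat n, (∀ a b, |U a b| ≤ 1) → ∀ i j, Df i j U = Dg i j U) : C1cl g Dg := by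
  intro ε hε
  obtain ⟨p, hp⟩ := hf ε hε
  refine ⟨p, fun U hU => ⟨?_, fun i j => ?_⟩⟩
  · rw [← h1 U hU]; exact (hp U hU).1
  · rw [← h2 U hU]; exact (hp U hU).2 i j

theorem C1cl.add {f g : Mat n → ℝ} {Df Dg : Fin n → Fin n → Mat n → ℝ} (hf : C1cl f Df)
    (hg : C1cl g Dg) : C1cl (fun U => f U + g U) (fun i j U => Df i j U + Dg i j U) := by
  intro ε hε
  obtain ⟨p, hp⟩ := hf (ε / 2) (by linarith)
  obtain ⟨q, hq⟩ := hg (ε / 2) (by linarith)
  refine ⟨p + q, fun U hU => ⟨?_, fun i j => ?_⟩⟩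
  · rw [ev_add]
    have h1 := abs_le.mp (hp U hU).1
    have h2 := abs_le.mp (hq U hU).1
    rw [abs_le]; constructor <;> linarith [h1.1, h1.2, h2.1, h2.2]
  · rw [map_add, ev_add]
    have h1 := abs_le.mp ((hp U hU).2 i j)
    have h2 := abs_le.mp ((hq U hU).2 i j)
    rw [abs_le]; constructor <;> linarith [h1.1, h1.2, h2.1, h2.2]

theorem C1cl.const_mul {f : Mat n → ℝ} {Df : Fin n → Fin n → Mat n → ℝ} (hf : C1cl f Df)
    (c : ℝ) : C1cl (fun U => c * f U) (fun i j U => c * Df i j U) := by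
  intro ε hε
  have hc : 0 < |c| + 1 := by positivity
  obtain ⟨p, hp⟩ := hf (ε / (|c| + 1)) (by positivity)
  have key : ∀ x y : ℝ, |x - y| ≤ ε / (|c| + 1) → |c * x - c * y| ≤ ε := by
    intro x y h
    rw [← mul_sub, abs_mul]
    calc |c| * |x - y| ≤ (|c| + 1) * (ε / (|c| + 1)) := by
          gcongr
          · linarith
      _ = ε := by field_simp
  refine ⟨c • p, fun U hU => ⟨?_, fun i j => ?_⟩⟩
  · rw [ev_smul]; exact key _ _ (hp U hU).1
  · rw [Derivation.map_smul, ev_smul]; exact key _ _ ((hp U hU).2 i j)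

theorem C1cl.const (c : ℝ) : C1cl (n := n) (fun _ => c) (fun _ _ _ => 0) := by
  refine (C1cl.poly (MvPolynomial.C c)).congr (fun U _ => by rw [ev_C]) (fun U _ i j => ?_)
  have h2 : Xd i j (MvPolynomial.C c : PolyM n) = 0 := MvPolynomial.derivation_C _ _
  rw [h2, ev_zero]

theorem C1cl.sum {ι : Type*} (s : Finset ι) {f : ι → Mat n → ℝ}
    {Df : ι → Fin n → Fin n → Mat n → ℝ} (hf : ∀ k ∈ s, C1cl (f k) (Df k)) :
    C1cl (fun U => ∑ k ∈ s, f k U) (fun i j U => ∑ k ∈ s, Df k i j U) := by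
  classical
  induction s using Finset.induction_on with
  | empty => simpa using C1cl.const (n := n) 0
  | insert a s ha ih =>
    have h1 := (hf a (Finset.mem_insert_self _ _)).add
      (ih fun k hk => hf k (Finset.mem_insert_of_mem hk))
    refine h1.congr (fun U _ => ?_) (fun U _ i j => ?_)
    · rw [Finset.sum_insert ha]
    · rw [Finset.sum_insert ha]

theorem C1cl.bound {f : Mat n → ℝ} {Df : Fin n → Fin n → Mat n → ℝ} (hf : C1cl f Df) :
    ∃ K : ℝ, 0 ≤ K ∧ ∀ U : Mat n, (∀ a b, |U a b| ≤ 1) → |f U| ≤ K ∧ ∀ i j, |Df i j U| ≤ K := by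
  obtain ⟨p, hp⟩ := hf 1 one_pos
  obtain ⟨K0, hK0, hK⟩ := exists_bound_ev p 1
  choose K1 hK1 hK1' using fun ij : Fin n × Fin n => exists_bound_ev (Xd ij.1 ij.2 p) 1
  refine ⟨K0 + ∑ ij, K1 ij + 1, ?_, fun U hU => ⟨?_, fun i j => ?_⟩⟩
  · have := Finset.sum_nonneg fun ij (_ : ij ∈ Finset.univ) => hK1 ij
    linarith
  · have h1 := (hp U hU).1
    have h2 := hK U hU
    have h3 := Finset.sum_nonneg fun ij (_ : ij ∈ Finset.univ) => hK1 ij
    have h4 : |f U| ≤ |ev p U| + |ev p U - f U| := by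
      have := abs_sub_abs_le_abs_sub (f U) (ev p U)
      rw [abs_sub_comm (f U)] at this
      linarith
    linarith
  · have h1 := (hp U hU).2 i j
    have h2 := hK1' (i, j) U hU
    have h3 : K1 (i, j) ≤ ∑ ij, K1 ij :=
      Finset.single_le_sum (fun ij _ => hK1 ij) (Finset.mem_univ (i, j))
    have h4 : |Df i j U| ≤ |ev (Xd i j p) U| + |ev (Xd i j p) U - Df i j U| := by
      have := abs_sub_abs_le_abs_sub (Df i j U) (ev (Xd i j p) U)
      rw [abs_sub_comm (Df i j U)] at this
      linarith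
    simp only at h2
    linarith

theorem ev_aeval (P : Polynomial ℝ) (p : PolyM n) (U : Mat n) :
    ev (Polynomial.aeval p P) U = P.eval (ev p U) := by
  induction P using Polynomial.induction_on' with
  | add P Q hP hQ => simp only [map_add, ev_add, hP, hQ, Polynomial.eval_add]
  | monomial k c =>
    rw [Polynomial.aeval_monomial, Polynomial.eval_monomial, ev_mul, ev_pow]
    congr 1
    exact ev_C c U

theorem C1cl.comp {f : Mat n → ℝ} {Df : Fin n → Fin n → Mat n → ℝ} (hf : C1cl f Df)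
    (a b : ℝ) (hab : ∀ U : Mat n, (∀ a b, |U a b| ≤ 1) → f U ∈ Set.Icc a b) (g g' : ℝ → ℝ)
    (hg : ∀ x ∈ Set.Icc a b, HasDerivAt g (g' x) x) (hg' : ContinuousOn g' (Set.Icc a b)) :
    C1cl (fun U => g (f U)) (fun i j U => g' (f U) * Df i j U) := by
  intro ε hε
  have hab0 : a ≤ b := by
    have := hab (fun _ _ => 0) (by simp)
    exact this.1.trans this.2
  obtain ⟨K, hK0, hK⟩ := hf.bound
  obtain ⟨G, hG⟩ : ∃ G : ℝ, ∀ x ∈ Set.Icc a b, |g' x| ≤ G := by
    obtain ⟨G, hG⟩ := isCompact_Icc.exists_bound_of_continuousOn hg'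
    exact ⟨G, fun x hx => by simpa [Real.norm_eq_abs] using hG x hx⟩
  have hG0 : 0 ≤ G := (abs_nonneg _).trans (hG a (Set.left_mem_Icc.mpr hab0))
  set ε1 := ε / (3 * (K + 2)) with hε1
  have hε1pos : 0 < ε1 := by positivity
  obtain ⟨P, hP⟩ := exists_poly_C1 a b hab0 g g' hg hg' ε1 hε1pos
  -- uniform continuity of `P` and `P'` on `[a-1,b+1]`
  have huc : ∀ Q : Polynomial ℝ, ∃ δ : ℝ, 0 < δ ∧ ∀ x ∈ Set.Icc (a - 1) (b + 1),
      ∀ y ∈ Set.Icc (a - 1) (b + 1), |x - y| ≤ δ → |Q.eval x - Q.eval y| ≤ ε1 := by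
    intro Q
    have h1 : UniformContinuousOn (fun x => Q.eval x) (Set.Icc (a - 1) (b + 1)) :=
      isCompact_Icc.uniformContinuousOn_of_continuous Q.continuous.continuousOn
    rw [Metric.uniformContinuousOn_iff] at h1
    obtain ⟨δ, hδ, h⟩ := h1 ε1 hε1pos
    refine ⟨δ / 2, by linarith, fun x hx y hy hxy => ?_⟩
    have := h x hx y hy (by rw [Real.dist_eq]; linarith)
    rw [Real.dist_eq] at this
    exact this.le
  obtain ⟨δ1, hδ1, hP1⟩ := huc P
  obtain ⟨δ2, hδ2, hP2⟩ := huc P.derivative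
  set δ := min (min δ1 δ2) (min 1 (ε / (3 * (G + 1)))) with hδ
  have hδpos : 0 < δ := by
    have : 0 < ε / (3 * (G + 1)) := by positivity
    simp [hδ, hδ1, hδ2, this]
  obtain ⟨p, hp⟩ := hf δ hδpos
  refine ⟨Polynomial.aeval p P, fun U hU => ?_⟩
  obtain ⟨hp1, hp2⟩ := hp U hU
  have hd1 : δ ≤ δ1 := (min_le_left _ _).trans (min_le_left _ _)
  have hd2 : δ ≤ δ2 := (min_le_left _ _).trans (min_le_right _ _)
  have hd3 : δ ≤ 1 := (min_le_right _ _).trans (min_le_left _ _)
  have hd4 : δ ≤ ε / (3 * (G + 1)) := (min_le_right _ _).trans (min_le_right _ _)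
  have hfU := hab U hU
  have hm1 : f U ∈ Set.Icc (a - 1) (b + 1) := ⟨by linarith [hfU.1], by linarith [hfU.2]⟩
  have hm2 : ev p U ∈ Set.Icc (a - 1) (b + 1) := by
    have := abs_le.mp (hp1.trans hd3)
    exact ⟨by linarith [hfU.1, this.1], by linarith [hfU.2, this.2]⟩
  have hε13 : ε1 ≤ ε / 6 := by
    rw [hε1]
    apply div_le_div_of_nonneg_left hε.le (by norm_num)
    linarith
  constructor
  · rw [ev_aeval]
    have h1 := hP1 _ hm2 _ hm1 (hp1.trans hd1)
    have h2 := (hP (f U) hfU).1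
    have : P.eval (ev p U) - g (f U) =
      (P.eval (ev p U) - P.eval (f U)) + (P.eval (f U) - g (f U)) := by ring
    rw [this]
    refine (abs_add_le _ _).trans ?_
    linarith
  · intro i j
    have hchain : Xd i j (Polynomial.aeval p P) =
        Polynomial.aeval p P.derivative * Xd i j p := by
      have := (Xd i j).map_aeval P p
      rw [smul_eq_mul] at this
      exact this
    rw [hchain, ev_mul, ev_aeval]
    have h1 := hP2 _ hm2 _ hm1 (hp1.trans hd2)
    have h2 := (hP (f U) hfU).2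
    have h3 := hp2 i j
    have h4 : |ev (Xd i j p) U| ≤ K + 1 := by
      have h5 := (hK U hU).2 i j
      have h6 : |ev (Xd i j p) U| ≤ |Df i j U| + |ev (Xd i j p) U - Df i j U| := by
        have := abs_sub_abs_le_abs_sub (ev (Xd i j p) U) (Df i j U)
        linarith
      linarith
    have e : P.derivative.eval (ev p U) * ev (Xd i j p) U - g' (f U) * Df i j U =
        (P.derivative.eval (ev p U) - P.derivative.eval (f U)) * ev (Xd i j p) U +
        (P.derivative.eval (f U) - g' (f U)) * ev (Xd i j p) U +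
        g' (f U) * (ev (Xd i j p) U - Df i j U) := by ring
    rw [e]
    refine (abs_add_le _ _).trans ?_
    have t1 : |(P.derivative.eval (ev p U) - P.derivative.eval (f U)) * ev (Xd i j p) U| ≤
        ε1 * (K + 1) := by rw [abs_mul]; gcongr
    have t2 : |(P.derivative.eval (f U) - g' (f U)) * ev (Xd i j p) U| ≤ ε1 * (K + 1) := by
      rw [abs_mul]; gcongr
    have t3 : |g' (f U) * (ev (Xd i j p) U - Df i j U)| ≤ G * δ := by
      rw [abs_mul]
      have := hG (f U) hfU
      gcongr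
    have t4 : ε1 * (K + 1) ≤ ε / 3 := by
      rw [hε1, div_mul_eq_mul_div, div_le_div_iff₀ (by positivity) (by norm_num)]
      nlinarith
    have t5 : G * δ ≤ ε / 3 := by
      calc G * δ ≤ (G + 1) * (ε / (3 * (G + 1))) := by gcongr; linarith
        _ = ε / 3 := by field_simp
    have := abs_add_le ((P.derivative.eval (ev p U) - P.derivative.eval (f U)) * ev (Xd i j p) U)
      ((P.derivative.eval (f U) - g' (f U)) * ev (Xd i j p) U)
    linarith

variable {μ : Measure (Mat n)} [IsProbabilityMeasure μ]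

/-- **Poincare inequality** on `SO(n)` for `C^1`-approximable functions. -/
theorem C1cl.poincare {f : Mat n → ℝ} {Df : Fin n → Fin n → Mat n → ℝ} (hf : C1cl f Df)
    (hμ : SOInv μ) (hn : 2 < n) :
    ((n : ℝ) - 2) * ∫ U, (f U - ∫ V, f V ∂μ) ^ 2 ∂μ ≤ ∫ U, ∑ i, ∑ j, (Df i j U) ^ 2 ∂μ := by
  have hb := hμ.rotInv.bdd
  obtain ⟨K, hK0, hK⟩ := hf.bound
  choose p hp using fun k : ℕ => hf (1 / ((k : ℝ) + 1)) (by positivity)
  have hε0 : Filter.Tendsto (fun k : ℕ => 1 / ((k : ℝ) + 1)) Filter.atTop (nhds 0) :=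
    tendsto_one_div_add_atTop_nhds_zero_nat
  have hε1 : ∀ k : ℕ, 1 / ((k : ℝ) + 1) ≤ 1 := by
    intro k
    rw [div_le_one (by positivity)]
    have : (0 : ℝ) ≤ k := Nat.cast_nonneg k
    linarith
  have hlim : ∀ U : Mat n, (∀ a b, |U a b| ≤ 1) →
      Filter.Tendsto (fun k => ev (p k) U) Filter.atTop (nhds (f U)) := by
    intro U hU
    rw [tendsto_iff_dist_tendsto_zero]
    refine squeeze_zero (fun _ => dist_nonneg) (fun k => ?_) hε0
    rw [Real.dist_eq]
    exact (hp k U hU).1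
  have hlim' : ∀ U : Mat n, (∀ a b, |U a b| ≤ 1) → ∀ i j,
      Filter.Tendsto (fun k => ev (Xd i j (p k)) U) Filter.atTop (nhds (Df i j U)) := by
    intro U hU i j
    rw [tendsto_iff_dist_tendsto_zero]
    refine squeeze_zero (fun _ => dist_nonneg) (fun k => ?_) hε0
    rw [Real.dist_eq]
    exact (hp k U hU).2 i j
  have hbd1 : ∀ k, ∀ U : Mat n, (∀ a b, |U a b| ≤ 1) → |ev (p k) U| ≤ K + 1 := by
    intro k U hU
    have h1 := (hp k U hU).1
    have h2 := (hK U hU).1
    have h3 := abs_sub_abs_le_abs_sub (ev (p k) U) (f U)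
    linarith [hε1 k]
  have hbd2 : ∀ k, ∀ U : Mat n, (∀ a b, |U a b| ≤ 1) → ∀ i j, |ev (Xd i j (p k)) U| ≤ K + 1 := by
    intro k U hU i j
    have h1 := (hp k U hU).2 i j
    have h2 := (hK U hU).2 i j
    have h3 := abs_sub_abs_le_abs_sub (ev (Xd i j (p k)) U) (Df i j U)
    linarith [hε1 k]
  -- convergence of the means
  have hmean : Filter.Tendsto (fun k => ∫ V, ev (p k) V ∂μ) Filter.atTop (nhds (∫ V, f V ∂μ)) := by
    refine tendsto_integral_of_dominated_convergence (fun _ => K + 1)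
      (fun k => (measurable_ev (p k)).aestronglyMeasurable) (integrable_const _) ?_ ?_
    · intro k
      filter_upwards [hb] with U hU
      rw [Real.norm_eq_abs]
      exact hbd1 k U hU
    · filter_upwards [hb] with U hU
      exact hlim U hU
  have hmb : ∀ k, |∫ V, ev (p k) V ∂μ| ≤ K + 1 := by
    intro k
    have h1 := norm_integral_le_integral_norm (μ := μ) (fun V => ev (p k) V)
    rw [Real.norm_eq_abs] at h1
    refine h1.trans ?_
    have h2 : ∫ V, ‖ev (p k) V‖ ∂μ ≤ ∫ _V : Mat n, (K + 1) ∂μ := by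
      apply integral_mono_ae ((integrable_ev hb (p k)).norm) (integrable_const _)
      filter_upwards [hb] with U hU
      rw [Real.norm_eq_abs]
      exact hbd1 k U hU
    simpa using h2
  have hL : Filter.Tendsto (fun k => ∫ U, (ev (p k) U - ∫ V, ev (p k) V ∂μ) ^ 2 ∂μ) Filter.atTop
      (nhds (∫ U, (f U - ∫ V, f V ∂μ) ^ 2 ∂μ)) := by
    refine tendsto_integral_of_dominated_convergence (fun _ => (2 * (K + 1)) ^ 2)
      (fun k => (((measurable_ev (p k)).sub_const _).pow_const 2).aestronglyMeasurable)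
      (integrable_const _) ?_ ?_
    · intro k
      filter_upwards [hb] with U hU
      rw [Real.norm_eq_abs, abs_of_nonneg (sq_nonneg _), ← sq_abs]
      have h1 := hbd1 k U hU
      have h2 := hmb k
      have h3 : |ev (p k) U - ∫ V, ev (p k) V ∂μ| ≤ 2 * (K + 1) := by
        refine (abs_sub _ _).trans ?_
        linarith
      gcongr
    · filter_upwards [hb] with U hU
      exact ((hlim U hU).sub hmean).pow 2
  have hR : Filter.Tendsto (fun k => ∫ U, Gam (p k) U ∂μ) Filter.atTop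
      (nhds (∫ U, ∑ i, ∑ j, (Df i j U) ^ 2 ∂μ)) := by
    refine tendsto_integral_of_dominated_convergence
      (fun _ => ∑ i : Fin n, ∑ j : Fin n, (K + 1) ^ 2)
      (fun k => ?_) (integrable_const _) ?_ ?_
    · unfold Gam
      refine Measurable.aestronglyMeasurable ?_
      refine Finset.measurable_sum _ fun i _ => Finset.measurable_sum _ fun j _ => ?_
      exact (measurable_ev _).pow_const 2
    · intro k
      filter_upwards [hb] with U hU
      rw [Real.norm_eq_abs, abs_of_nonneg (Finset.sum_nonneg fun i _ => Finset.sum_nonneg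
        fun j _ => sq_nonneg _)]
      unfold Gam
      refine Finset.sum_le_sum fun i _ => Finset.sum_le_sum fun j _ => ?_
      rw [← sq_abs]
      have := hbd2 k U hU i j
      gcongr
    · filter_upwards [hb] with U hU
      unfold Gam
      exact tendsto_finsetSum _ fun i _ => tendsto_finsetSum _ fun j _ => (hlim' U hU i j).pow 2
  exact le_of_tendsto_of_tendsto' (hL.const_mul _) hR fun k => poly_poincare hμ hn (p k)

end Crest.Agent.Lib.OrthPoinc
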