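import Mathlib
import Crest.Agent.Lib.OrthPoinc.C1

set_option autoImplicit false

/-!
Fourth moment bound on `SO(n)` for `C^1`-approximable functions, log-sum-exp functions, passage from
`O(n)` to `SO(n)`.
-/

namespace Crest.Agent.Lib.OrthPoinc

open MeasureTheory

variable {n : ℕ} {μ : Measure (Mat n)} [IsProbabilityMeasure μ]

theorem C1cl.tendsto_poly {f : Mat n → ℝ} {Df : Fin n → Fin n → Mat n → ℝ} (hf : C1cl f Df) :
    ∃ p : ℕ → PolyM n, ∀ U : Mat n, (∀ a b, |U a b| ≤ 1) →
      Filter.Tendsto (fun k => ev (p k) U) Filter.atTop (nhds (f U)) := by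
  choose p hp using fun k : ℕ => hf (1 / ((k : ℝ) + 1)) (by positivity)
  refine ⟨p, fun U hU => ?_⟩
  rw [tendsto_iff_dist_tendsto_zero]
  refine squeeze_zero (fun _ => dist_nonneg) (fun k => ?_) tendsto_one_div_add_atTop_nhds_zero_nat
  rw [Real.dist_eq]
  exact (hp k U hU).1

theorem C1cl.aesm {f : Mat n → ℝ} {Df : Fin n → Fin n → Mat n → ℝ} (hf : C1cl f Df)
    (hb : ∀ᵐ U ∂μ, ∀ a b, |U a b| ≤ 1) : AEStronglyMeasurable f μ := by
  obtain ⟨p, hp⟩ := hf.tendsto_poly
  refine aestronglyMeasurable_of_tendsto_ae Filter.atTop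
    (fun k => (measurable_ev (p k)).aestronglyMeasurable) ?_
  filter_upwards [hb] with U hU
  exact hp U hU

theorem C1cl.integrable {f : Mat n → ℝ} {Df : Fin n → Fin n → Mat n → ℝ} (hf : C1cl f Df)
    (hb : ∀ᵐ U ∂μ, ∀ a b, |U a b| ≤ 1) : Integrable f μ := by
  obtain ⟨K, hK0, hK⟩ := hf.bound
  refine Integrable.of_bound (hf.aesm hb) K ?_
  filter_upwards [hb] with U hU
  rw [Real.norm_eq_abs]
  exact (hK U hU).1

theorem C1cl.sq_sub {f : Mat n → ℝ} {Df : Fin n → Fin n → Mat n → ℝ} (hf : C1cl f Df) (m : ℝ) :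
    C1cl (fun U => (f U - m) ^ 2) (fun i j U => 2 * (f U - m) * Df i j U) := by
  obtain ⟨K, hK0, hK⟩ := hf.bound
  refine hf.comp (-K) K (fun U hU => abs_le.mp (hK U hU).1) (fun x => (x - m) ^ 2)
    (fun x => 2 * (x - m)) (fun x _ => ?_) (by fun_prop)
  have h := ((hasDerivAt_id x).sub_const m).pow 2
  refine h.congr_deriv ?_
  simp

/-- variance bound -/
theorem C1cl.variance_le {f : Mat n → ℝ} {Df : Fin n → Fin n → Mat n → ℝ} (hf : C1cl f Df)
    (hμ : SOInv μ) (hn : 2 < n) (L : ℝ) (hL : ∀ᵐ U ∂μ, ∑ i, ∑ j, (Df i j U) ^ 2 ≤ L) :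
    ∫ U, (f U - ∫ V, f V ∂μ) ^ 2 ∂μ ≤ L / ((n : ℝ) - 2) := by
  have hn' : (0 : ℝ) < (n : ℝ) - 2 := by
    have : (2 : ℝ) < n := by exact_mod_cast hn
    linarith
  have h1 := hf.poincare hμ hn
  have h2 : ∫ U, ∑ i, ∑ j, (Df i j U) ^ 2 ∂μ ≤ ∫ _U : Mat n, L ∂μ := by
    refine integral_mono_of_nonneg ?_ (integrable_const _) hL
    exact Filter.Eventually.of_forall fun U => Finset.sum_nonneg fun i _ =>
      Finset.sum_nonneg fun j _ => sq_nonneg _
  rw [le_div_iff₀ hn']
  simp only [integral_const, probReal_univ, smul_eq_mul, one_mul] at h2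
  linarith

/-- fourth moment bound -/
theorem C1cl.fourth_moment {f : Mat n → ℝ} {Df : Fin n → Fin n → Mat n → ℝ} (hf : C1cl f Df)
    (hμ : SOInv μ) (hn : 2 < n) (L : ℝ) (hL : ∀ᵐ U ∂μ, ∑ i, ∑ j, (Df i j U) ^ 2 ≤ L) :
    ∫ U, (f U - ∫ V, f V ∂μ) ^ 4 ∂μ ≤ 5 * (L / ((n : ℝ) - 2)) ^ 2 := by
  have hb := hμ.rotInv.bdd
  have hn' : (0 : ℝ) < (n : ℝ) - 2 := by
    have : (2 : ℝ) < n := by exact_mod_cast hn
    linarith
  set m := ∫ V, f V ∂μ with hm
  have hL0 : 0 ≤ L := by
    obtain ⟨U, hU⟩ := hL.exists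
    exact (Finset.sum_nonneg fun i _ => Finset.sum_nonneg fun j _ => sq_nonneg _).trans hU
  have hv := hf.variance_le hμ hn L hL
  rw [← hm] at hv
  have hg := hf.sq_sub m
  set v := ∫ U, (f U - m) ^ 2 ∂μ with hvdef
  have hv0 : 0 ≤ v := integral_nonneg fun U => sq_nonneg _
  have hgi : Integrable (fun U => (f U - m) ^ 2) μ := hg.integrable hb
  have hg2i : Integrable (fun U => ((f U - m) ^ 2) ^ 2) μ := by
    have := (hg.sq_sub 0).integrable hb
    simpa using this
  have h1 := hg.poincare hμ hn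
  have h2 : ∫ U, ∑ i, ∑ j, (2 * (f U - m) * Df i j U) ^ 2 ∂μ ≤ 4 * L * v := by
    rw [hvdef, ← integral_const_mul]
    refine integral_mono_of_nonneg ?_ (hgi.const_mul _) ?_
    · exact Filter.Eventually.of_forall fun U => Finset.sum_nonneg fun i _ =>
        Finset.sum_nonneg fun j _ => sq_nonneg _
    · filter_upwards [hL] with U hU
      have e : ∑ i, ∑ j, (2 * (f U - m) * Df i j U) ^ 2 =
          4 * (f U - m) ^ 2 * ∑ i, ∑ j, (Df i j U) ^ 2 := by
        rw [Finset.mul_sum]
        refine Finset.sum_congr rfl fun i _ => ?_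
        rw [Finset.mul_sum]
        refine Finset.sum_congr rfl fun j _ => by ring
      rw [e]
      calc 4 * (f U - m) ^ 2 * ∑ i, ∑ j, (Df i j U) ^ 2 ≤ 4 * (f U - m) ^ 2 * L := by gcongr
        _ = 4 * L * (f U - m) ^ 2 := by ring
  have h3 : ∫ U, ((f U - m) ^ 2 - v) ^ 2 ∂μ = ∫ U, (f U - m) ^ 4 ∂μ - v ^ 2 := by
    have e : ∀ U, ((f U - m) ^ 2 - v) ^ 2 = ((f U - m) ^ 2) ^ 2 - 2 * v * (f U - m) ^ 2 + v ^ 2 :=
      fun U => by ring
    simp only [e]
    rw [integral_add (f := fun U => ((f U - m) ^ 2) ^ 2 - 2 * v * (f U - m) ^ 2)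
      (g := fun _ => v ^ 2) (hg2i.sub (hgi.const_mul _)) (integrable_const _),
      integral_sub (f := fun U => ((f U - m) ^ 2) ^ 2) (g := fun U => 2 * v * (f U - m) ^ 2) hg2i
        (hgi.const_mul _), integral_const_mul]
    have e4 : ∀ U, ((f U - m) ^ 2) ^ 2 = (f U - m) ^ 4 := fun U => by ring
    simp only [e4]
    rw [← hvdef]
    simp
    ring
  rw [← hvdef, h3] at h1
  set D := L / ((n : ℝ) - 2) with hD
  have hD0 : 0 ≤ D := div_nonneg hL0 hn'.le
  have hLD : L = D * ((n : ℝ) - 2) := by rw [hD]; field_simp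
  have h4 : ((n : ℝ) - 2) * (∫ U, (f U - m) ^ 4 ∂μ - v ^ 2) ≤ ((n : ℝ) - 2) * (4 * D * v) := by
    refine (h1.trans h2).trans (le_of_eq ?_)
    rw [hLD]; ring
  have h5 := le_of_mul_le_mul_left h4 hn'
  have h6 : D * v ≤ D * D := mul_le_mul_of_nonneg_left hv hD0
  have h7 : v ^ 2 ≤ D ^ 2 := pow_le_pow_left₀ hv0 hv 2
  nlinarith

/-- log-sum-exp -/
theorem C1cl.lse {S : Type*} [Fintype S] [Nonempty S] {h : S → Mat n → ℝ}
    {Dh : S → Fin n → Fin n → Mat n → ℝ} (hh : ∀ s, C1cl (h s) (Dh s)) :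
    C1cl (fun U => Real.log (∑ s, Real.exp (h s U)))
      (fun i j U => (∑ s, Real.exp (h s U) * Dh s i j U) / ∑ s, Real.exp (h s U)) := by
  classical
  choose K hK0 hK using fun s => (hh s).bound
  have h1 : ∀ s, C1cl (fun U => Real.exp (h s U)) (fun i j U => Real.exp (h s U) * Dh s i j U) :=
    fun s => (hh s).comp (-K s) (K s) (fun U hU => abs_le.mp (hK s U hU).1) Real.exp Real.exp
      (fun x _ => Real.hasDerivAt_exp x) Real.continuous_exp.continuousOn
  have h2 := C1cl.sum Finset.univ (fun s _ => h1 s)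
  have h3 := h2.comp (∑ s, Real.exp (-K s)) (∑ s, Real.exp (K s)) (fun U hU => by
    refine ⟨Finset.sum_le_sum fun s _ => ?_, Finset.sum_le_sum fun s _ => ?_⟩
    · exact Real.exp_le_exp.mpr (abs_le.mp (hK s U hU).1).1
    · exact Real.exp_le_exp.mpr (abs_le.mp (hK s U hU).1).2) Real.log (fun x => x⁻¹)
    (fun x hx => by
      refine Real.hasDerivAt_log ?_
      have : 0 < ∑ s, Real.exp (-K s) :=
        Finset.sum_pos (fun s _ => Real.exp_pos _) Finset.univ_nonempty
      exact (this.trans_le hx.1).ne')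
    (by
      refine ContinuousOn.inv₀ continuousOn_id fun x hx => ?_
      have : 0 < ∑ s, Real.exp (-K s) :=
        Finset.sum_pos (fun s _ => Real.exp_pos _) Finset.univ_nonempty
      exact (this.trans_le hx.1).ne')
  refine h3.congr (fun U _ => rfl) (fun U _ i j => ?_)
  rw [div_eq_inv_mul]

/-- the energy of a log-sum-exp is bounded by the energies of the exponents -/
theorem lse_energy {S : Type*} [Fintype S] [Nonempty S] (h : S → ℝ)
    (Dh : S → Fin n → Fin n → ℝ) (L : ℝ) (hL : ∀ s, ∑ i, ∑ j, (Dh s i j) ^ 2 ≤ L) :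
    ∑ i, ∑ j, ((∑ s, Real.exp (h s) * Dh s i j) / ∑ s, Real.exp (h s)) ^ 2 ≤ L := by
  set Z := ∑ s, Real.exp (h s) with hZ
  have hZpos : 0 < Z := Finset.sum_pos (fun s _ => Real.exp_pos _) Finset.univ_nonempty
  have hcs : ∀ x : S → ℝ, ((∑ s, Real.exp (h s) * x s) / Z) ^ 2 ≤
      (∑ s, Real.exp (h s) * (x s) ^ 2) / Z := by
    intro x
    have h1 : (∑ s, Real.exp (h s) * x s) ^ 2 ≤ Z * ∑ s, Real.exp (h s) * (x s) ^ 2 := by
      have := Finset.sum_sq_le_sum_mul_sum_of_sq_le_mul (Finset.univ : Finset S)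
        (r := fun s => Real.exp (h s) * x s) (f := fun s => Real.exp (h s))
        (g := fun s => Real.exp (h s) * (x s) ^ 2)
        (fun s _ => (Real.exp_pos _).le) (fun s _ => by positivity) (fun s _ => le_of_eq (by ring))
      exact this
    rw [div_pow, div_le_div_iff₀ (by positivity) hZpos]
    nlinarith
  calc ∑ i, ∑ j, ((∑ s, Real.exp (h s) * Dh s i j) / Z) ^ 2
      ≤ ∑ i, ∑ j, (∑ s, Real.exp (h s) * (Dh s i j) ^ 2) / Z :=
        Finset.sum_le_sum fun i _ => Finset.sum_le_sum fun j _ => hcs fun s => Dh s i j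
    _ = (∑ s, Real.exp (h s) * ∑ i, ∑ j, (Dh s i j) ^ 2) / Z := by
        simp only [← Finset.sum_div]
        congr 1
        calc ∑ i, ∑ j, ∑ s, Real.exp (h s) * (Dh s i j) ^ 2
            = ∑ i, ∑ s, ∑ j, Real.exp (h s) * (Dh s i j) ^ 2 :=
              Finset.sum_congr rfl fun i _ => Finset.sum_comm
          _ = ∑ s, ∑ i, ∑ j, Real.exp (h s) * (Dh s i j) ^ 2 := Finset.sum_comm
          _ = _ := by
              refine Finset.sum_congr rfl fun s _ => ?_
              rw [Finset.mul_sum]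
              exact Finset.sum_congr rfl fun i _ => by rw [Finset.mul_sum]
    _ ≤ (∑ s, Real.exp (h s) * L) / Z := by
        gcongr with s _
        exact hL s
    _ = L := by
        rw [← Finset.sum_mul, ← hZ]
        field_simp

/-! ### from `O(n)` to `SO(n)` -/

/-- change the sign of the first row -/
def flipR (U : Mat n) : Mat n := fun i j => if i.val = 0 then - U i j else U i j

/-- A law on `O(n)` which is right invariant. -/
structure OInv (ν : Measure (Mat n)) : Prop where
  mem : ∀ᵐ U ∂ν, Matrix.of U ∈ Matrix.orthogonalGroup (Fin n) ℝ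
  inv : ∀ V ∈ Matrix.orthogonalGroup (Fin n) ℝ, ν.map (rmul V) = ν

/-- move to `SO(n)` by flipping the first row if necessary -/
noncomputable def toSO (U : Mat n) : Mat n :=
  if (Matrix.of U).det = 1 then U else flipR U

theorem flipR_eq (U : Mat n) : Matrix.of (flipR U) =
    Matrix.diagonal (fun i : Fin n => if i.val = 0 then (-1 : ℝ) else 1) * Matrix.of U := by
  ext i j
  rw [Matrix.diagonal_mul]
  simp only [flipR, Matrix.of_apply]
  split_ifs <;> ring

theorem det_flipR (hn : 0 < n) (U : Mat n) :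
    (Matrix.of (flipR U)).det = - (Matrix.of U).det := by
  rw [flipR_eq, Matrix.det_mul, Matrix.det_diagonal]
  have : ∏ i : Fin n, (if i.val = 0 then (-1 : ℝ) else 1) = -1 := by
    rw [Finset.prod_eq_single (⟨0, hn⟩ : Fin n)]
    · simp
    · intro b _ hb
      have : b.val ≠ 0 := fun h => hb (Fin.ext h)
      simp [this]
    · intro h; exact absurd (Finset.mem_univ _) h
  rw [this]; ring

theorem flipR_orth (U : Mat n) (hU : Matrix.of U ∈ Matrix.orthogonalGroup (Fin n) ℝ) :
    Matrix.of (flipR U) ∈ Matrix.orthogonalGroup (Fin n) ℝ := by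
  rw [Matrix.mem_orthogonalGroup_iff] at hU ⊢
  rw [flipR_eq, Matrix.transpose_mul, Matrix.diagonal_transpose]
  have h1 : Matrix.of U * (Matrix.of U).transpose = 1 := hU
  calc Matrix.diagonal (fun i : Fin n => if i.val = 0 then (-1 : ℝ) else 1) * Matrix.of U *
        ((Matrix.of U).transpose * Matrix.diagonal (fun i : Fin n => if i.val = 0 then (-1 : ℝ) else 1))
      = Matrix.diagonal (fun i : Fin n => if i.val = 0 then (-1 : ℝ) else 1) *
        (Matrix.of U * (Matrix.of U).transpose) *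
        Matrix.diagonal (fun i : Fin n => if i.val = 0 then (-1 : ℝ) else 1) := by
        simp only [Matrix.mul_assoc]
    _ = 1 := by
        rw [h1, Matrix.mul_one, Matrix.diagonal_mul_diagonal]
        ext i j
        rw [Matrix.diagonal_apply, Matrix.one_apply]
        split_ifs <;> norm_num

theorem measurable_flipR : Measurable (flipR (n := n)) := by
  unfold flipR
  refine measurable_pi_lambda _ fun i => measurable_pi_lambda _ fun j => ?_
  split_ifs <;> fun_prop

theorem measurable_det_of : Measurable (fun U : Mat n => (Matrix.of U).det) := by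
  have : (fun U : Mat n => (Matrix.of U).det) =
      fun U : Mat n => ∑ σ : Equiv.Perm (Fin n), ((Equiv.Perm.sign σ : ℤ) : ℝ) * ∏ i, U (σ i) i := by
    funext U
    rw [Matrix.det_apply']
    rfl
  rw [this]
  fun_prop

theorem measurable_toSO : Measurable (toSO (n := n)) := by
  unfold toSO
  exact Measurable.ite (measurableSet_eq_fun measurable_det_of measurable_const) measurable_id
    measurable_flipR

theorem toSO_mem (hn : 0 < n) (U : Mat n) (hU : Matrix.of U ∈ Matrix.orthogonalGroup (Fin n) ℝ) :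
    Matrix.of (toSO U) ∈ Matrix.specialOrthogonalGroup (Fin n) ℝ := by
  rw [Matrix.mem_specialOrthogonalGroup_iff]
  unfold toSO
  split_ifs with h
  · exact ⟨hU, h⟩
  · refine ⟨flipR_orth U hU, ?_⟩
    rw [det_flipR hn]
    have h1 := det_sq_of_orth hU
    have h2 : ((Matrix.of U).det - 1) * ((Matrix.of U).det + 1) = 0 := by linear_combination h1
    rcases mul_eq_zero.mp h2 with h3 | h3
    · exact absurd (by linarith) h
    · linarith

theorem toSO_rmul (U : Mat n) (V : Matrix (Fin n) (Fin n) ℝ) (hV : V.det = 1) :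
    toSO (rmul V U) = rmul V (toSO U) := by
  have h1 : (Matrix.of (rmul V U)).det = (Matrix.of U).det := by
    have : Matrix.of (rmul V U) = Matrix.of U * V := by ext; rfl
    rw [this, Matrix.det_mul, hV, mul_one]
  unfold toSO
  rw [h1]
  split_ifs with h
  · rfl
  · funext i j
    simp only [flipR, rmul_apply]
    split_ifs
    · rw [← Finset.sum_neg_distrib]
      exact Finset.sum_congr rfl fun k _ => by ring
    · rfl

theorem OInv.toSOInv {ν : Measure (Mat n)} (hν : OInv ν) (hn : 0 < n) : SOInv (ν.map toSO) where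
  mem := by
    rw [ae_map_iff measurable_toSO.aemeasurable]
    · filter_upwards [hν.mem] with U hU
      exact toSO_mem hn U hU
    · -- measurability of the special orthogonal group
      have : {U : Mat n | Matrix.of U ∈ Matrix.specialOrthogonalGroup (Fin n) ℝ} =
          {U : Mat n | (∀ i j, (Matrix.of U * (Matrix.of U).transpose) i j = (1 : Matrix (Fin n) (Fin n) ℝ) i j) ∧
            (Matrix.of U).det = 1} := by
        ext U
        simp only [Set.mem_ofPred_eq, Matrix.mem_specialOrthogonalGroup_iff,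
          Matrix.mem_orthogonalGroup_iff]
        constructor
        · rintro ⟨h1, h2⟩
          exact ⟨fun i j => congrFun (congrFun h1 i) j, h2⟩
        · rintro ⟨h1, h2⟩
          exact ⟨by ext i j; exact h1 i j, h2⟩
      rw [this]
      have e : {U : Mat n | ∀ i j, (Matrix.of U * (Matrix.of U).transpose) i j = (1 : Matrix (Fin n) (Fin n) ℝ) i j}
          = ⋂ i, ⋂ j, {U : Mat n | (Matrix.of U * (Matrix.of U).transpose) i j = (1 : Matrix (Fin n) (Fin n) ℝ) i j} := by
        ext U; simp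
      have hm : MeasurableSet {U : Mat n | ∀ i j, (Matrix.of U * (Matrix.of U).transpose) i j =
          (1 : Matrix (Fin n) (Fin n) ℝ) i j} := by
        rw [e]
        refine MeasurableSet.iInter fun i => MeasurableSet.iInter fun j => ?_
        refine measurableSet_eq_fun ?_ measurable_const
        simp only [Matrix.mul_apply, Matrix.transpose_apply, Matrix.of_apply]
        fun_prop
      exact hm.inter (measurableSet_eq_fun measurable_det_of measurable_const)
  inv V hV := by
    have hVd := (Matrix.mem_specialOrthogonalGroup_iff.mp hV).2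
    rw [Measure.map_map (continuous_rmul V).measurable measurable_toSO]
    have : rmul V ∘ toSO = toSO ∘ rmul V := by
      funext U
      exact (toSO_rmul U V hVd).symm
    rw [this, ← Measure.map_map measurable_toSO (continuous_rmul V).measurable,
      hν.inv V (Matrix.mem_specialOrthogonalGroup_iff.mp hV).1]

end Crest.Agent.Lib.OrthPoinc
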